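import Vale.Agent.P287Q.G.Fg.Defs
import Vale.Agent.P269.Cv.CtrB
import Vale.Agent.P269.Cv.CtrC
import Vale.Agent.P287Q.G.Pt.LC
import Vale.Agent.P269.Pt.Cmp
import Vale.Agent.P269.Pt.Bnd

/-!
# Forgetting a marked point: pointwise theory
-/

set_option linter.unusedSectionVars false

namespace Vale.Agent.P269

open P291Z Set Function Topology Filter Cv

variable {S Λ R J K ν κ ν' κ' : Type} [Fintype S] [Fintype Λ] [Fintype R] [Fintype J] [Fintype K]
  [Fintype ν] [Fintype κ] [Fintype ν'] [Fintype κ']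

namespace FgP

open Classical in
theorem ω_eq [IsEmpty κ] (c : AC ν κ) : c.ω = omega c.R c.N (Finset.univ.image c.p) := by
  have : LB.cst c.R c.sg c.sg_ne = 1 := LB.ext (funext₂ fun x y => by simp [LB.cst, AC.sg])
  rw [AC.ω, this, mul_one, AC.P]

open Classical in
theorem ω_eq' [IsEmpty κ'] {α : Type} [Fintype α] (e : α ≃ Ch.Mk ν' κ') (c : AC ν' κ') :
    c.ω = omega c.R c.N (Finset.univ.image fun n => c.p (e n)) := by
  rw [ω_eq]
  congr 1
  ext x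
  simp only [Finset.mem_image, Finset.mem_univ, true_and]
  exact e.surjective.exists

section ctr

variable {X X' Y Y' α : Type} [TopologicalSpace X] [TopologicalSpace X'] [T2Space X] [CompactSpace X]
  [T2Space X'] [CompactSpace X'] [TopologicalSpace Y] [TopologicalSpace Y'] [T2Space Y]
  [CompactSpace Y] [T2Space Y'] [CompactSpace Y'] [Fintype α]
  {Q : RS X} {Q' : RS X'} {N : Finset (X × X)} {N' : Finset (X' × X')} {p : α → X}
  {p' : Option α → X'} {c : X} {j : X → X'} {r : X' → X}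
  {T : RS Y} {T' : RS Y'} {M : Finset (Y × Y)} {M' : Finset (Y' × Y')} {q : α → Y}
  {q' : Option α → Y'} {d : Y} {k : Y → Y'} {t : Y' → Y} {f : X ≃ Y} {f' : X' ≃ Y'}

theorem out_range (v : ∀ x, f' (j x) = k (f x)) {x : X'} (a : x ∉ range j) : f' x ∉ range k :=
  fun ⟨y, b⟩ => a ⟨f.symm y, f'.injective (by rw [v, f.apply_symm_apply, b])⟩

theorem eqv_up (h : Ctr Q Q' N N' p p' c j r) (h' : Ctr T T' M M' q q' d k t) (hf : LIso Q T f)
    (hf' : LIso Q' T' f') (v : ∀ x, f' (j x) = k (f x)) (L : LB T) :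
    Eqv (hf'.pb (h'.up L)) (h.up (hf.pb L)) := fun x => by
  refine LB.sec_iff.2 ((RS.hol_const (1 : ℂ)).congr ?_)
  by_cases a : x ∈ range j
  · refine Eventually.mono (h.clopen.isOpen.mem_nhds a) ?_
    obtain ⟨x, rfl⟩ := a
    rintro _ ⟨y, rfl⟩
    simp [v, h.left _, h'.left _, L.ne]
  · exact (h.ev_out a).mono fun y b => by
      simp [h.out _ a, h.out _ b, h'.out _ (out_range v a), h'.out _ (out_range v b), L.self]

theorem image_cc (hf : LIso Q T f) (x : X) :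
    f '' connectedComponent x = connectedComponent (f x) :=
  (hf.cont.image_connectedComponent_subset x).antisymm
    ((hf.isClopen_image (exists_comp (R := Q) x).1).connectedComponent_subset
      (mem_image_of_mem _ mem_connectedComponent))

end ctr

end FgP

namespace AM

open FgP

variable {W : Wt S Λ R J} {F : Fam S Λ R J K} {A : Set J} {θ d : R → ℤ} {g : ℤ} {τ : S → ℂ}

theorem Same.un {m m' : AM Λ R J ν κ} (h : m.Same m') {q : Ch.Mk ν κ} (a : m.Un θ q) :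
    m'.Un θ q := by
  classical
  obtain ⟨z, b, c, e⟩ := h.exists_cmp (m.p q)
  rw [Un, degOn_mul, degOn_bz, LC.degOn_ω (AC.sat_cmp _).1] at a ⊢
  rw [AC.cmp_eq ((e q).1 (AC.mem_cmp_self _))]
  simpa only [b, c, e] using a

theorem ivt_un (q : Ch.Mk ν κ) : AM.Ivt W (AM.Un θ q) := fun _ _ e => e.same.un

theorem Sol.degOn_zero [DecidableEq R] (hF : F.Good) {m : AM Λ R J ν κ} (h : m.Sol F) {U : Set m.X}
    (a : degOn (bz m.L F.θ) U < 3) (i : R) : degOn (m.L i) U = 0 :=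
  let ⟨_, _, b⟩ := hF.ample
  by_contra fun c => a.not_ge (h.degOn_θ b ⟨i, c⟩)

/-- the degrees of the polarisation on the components of a solution -/
theorem Sol.degOn_cc [DecidableEq R] (hF : F.Good) {m : AM Λ R J ν κ} (h : m.Sol F) (y : m.X) :
    degOn (bz m.L F.θ) (connectedComponent y) = 0 ∨
      3 ≤ degOn (bz m.L F.θ) (connectedComponent y) :=
  (lt_or_ge _ _).imp_left fun a => by simp [degOn_bz, h.degOn_zero hF a]

theorem IsoD.degOn_ωL {m m' : AM Λ R J ν κ} {f : m.X ≃ m'.X} {t : R → m.X → ℂ}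
    (a : IsoD W A m m' f t τ) {U : Set m.X} (hU : IsClopen U) :
    degOn (m'.ω * bz m'.L θ) (f '' U) = degOn (m.ω * bz m.L θ) U := by
  obtain ⟨w, -, b, c, -⟩ := AC.exists_omega a.liso a.node a.mark
  have := degOn_of_ne (U := U) (fun x _ => b.1 x) fun x _ => c x
  rw [degOn_div, a.liso.degOn_pb f.injective hU, sub_eq_zero] at this
  simp only [degOn_mul, degOn_bz, a.degOn_L, this]

variable [IsEmpty κ] [IsEmpty κ'] {e : Option (Ch.Mk ν κ) ≃ Ch.Mk ν' κ'} {m m₂ : AM Λ R J ν κ}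
  {m' m₂' : AM Λ R J ν' κ'} {z : m.X} {z₂ : m₂.X} {j : m.X → m'.X} {j₂ : m₂.X → m₂'.X}
  {r : m'.X → m.X} {r₂ : m₂'.X → m₂.X}

theorem exists_fg_up (e : Option (Ch.Mk ν κ) ≃ Ch.Mk ν' κ') (m : AM Λ R J ν κ) (z : m.X) :
    ∃ (m' : AM Λ R J ν' κ') (j : _) (r : _), Fg e m z m' j r := by
  obtain ⟨X', _, _, _, R', N', p', j, r, h⟩ := exists_ctr_up m.R m.nd m.sm m.inj z
  obtain ⟨q, rfl⟩ : ∃ q : Ch.Mk ν' κ' → X', p' = fun n => q (e n) :=
    ⟨fun n => p' (e.symm n), funext fun n => congrArg p' (e.symm_apply_apply n).symm⟩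
  exact ⟨⟨⟨X', R', N', q, h.nd', h.inj'.of_comp_right e.surjective,
    e.surjective.forall.2 h.sm'⟩, fun i => h.up (m.L i), m.l, fun a x => m.y a (r x)⟩, j, r,
    h, fun _ => rfl, rfl, fun _ _ => rfl⟩

theorem un_iff_unst [DecidableEq R] (hF : F.Good) (hs : m'.Sol F) (hb : m'.Stable F.θ) :
    m'.Un F.θ (e none) ↔ Unst m'.N (fun n => m'.p (e n)) (bz m'.L F.θ) := by
  classical
  have hE := (exists_comp (R := m'.R) (m'.p (e none))).1
  have hC := AC.sat_cmp (m'.p (e none))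
  have sub := hC.1.connectedComponent_subset (AC.mem_cmp_self _)
  rw [Un, Unst, ← ω_eq' e]
  refine ⟨fun a => ?_, fun ⟨a, b, c⟩ => ?_⟩
  · have b := hb _ hE ⟨_, mem_connectedComponent⟩
    have c : m'.cmp (m'.p (e none)) = connectedComponent (m'.p (e none)) := by
      refine Subset.antisymm (fun x hx => by_contra fun f => ?_) sub
      have := hb _ (hC.1.diff hE) ⟨x, hx, f⟩
      rw [← degOn_inter_add_diff hC.1 hE, inter_eq_right.2 sub] at a
      omega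
    rw [c, degOn_mul] at a
    obtain ⟨T, hT, f⟩ := CtrB.degOn_card (R := m'.R) m'.nd AC.sm_P hE
    have k1 := (degOn_K_ge (R := m'.R) hE isConnected_connectedComponent).1
    have k2 := Finset.card_pos.2 ⟨_, (hT _).2
      ⟨mem_connectedComponent, fun b => b.2 (AC.mem_P.2 ⟨e none, rfl⟩)⟩⟩
    have k3 := hs.degOn_cc hF (m'.p (e none))
    rw [← AC.degOn_ω] at f
    exact ⟨c ▸ hC.2, by omega, by omega⟩
  · rw [(AC.Sat.cmp_subset ⟨hE, a⟩ mem_connectedComponent).antisymm sub, degOn_mul, b, c, add_zero]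

/-- contraction of the curve underlying a map whose bundles have degree zero on the bubble -/
theorem exists_fg_of_ctr {X : Type} [TopologicalSpace X] [T2Space X] [CompactSpace X] {R₀ : RS X}
    {N : Finset (X × X)} {p : Ch.Mk ν κ → X} {c : X} {j : X → m'.X} {r : m'.X → X}
    (h : Ctr R₀ m'.R N m'.N p (fun n => m'.p (e n)) c j r) (hs : m'.Sec W)
    (hd : ∀ i, degOn (m'.L i) (range j)ᶜ = 0) :
    ∃ (L : R → LB R₀) (y : J → X → ℂ) (t : R → m'.X → ℂ),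
      Fg e ⟨⟨X, R₀, N, p, h.nd, h.inj, h.sm⟩, L, m'.l, y⟩ c
        ⟨m'.toAC, fun i => h.up (L i), m'.l, fun a x => y a (r x)⟩ j r ∧
      IsoD W univ ⟨m'.toAC, fun i => h.up (L i), m'.l, fun a x => y a (r x)⟩ m' (.refl _) t 1 := by
  classical
  choose L t t1 t0 using fun i => h.exists_down (hd i)
  have k : ∀ a, ∃ y ∈ H0 N (bz L (W.w a)),
      m'.y a * (fun x => ∏ i, t i x ^ W.w a i)⁻¹ = fun x => y (r x) := fun a => h.mem_up.1 (by
    have b := H0.mul_mem (hs a) (H0.inv_mem (bz_mem (c := fun x i => t i x) t1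
      (fun x i => t0 i x) (W.w a)) fun x => prod_zpow_ne (fun i => t0 i x) _)
    rw [bz_div, inv_div, mul_div_cancel] at b
    simpa only [bz, map_prod, map_zpow] using b)
  choose y _ hy using k
  refine ⟨L, y, t, ⟨h, fun _ => rfl, rfl, fun _ _ => rfl⟩, .id _, isUnit_one, fun _ _ => Iff.rfl,
    fun _ => rfl, t1, t0, fun _ q => isEmptyElim q, (W.actL_one _).symm, fun a _ x => ?_⟩
  have := congrFun (hy a) x
  simp only [Wt.actT, vl, ← this, Pi.one_apply, one_zpow, Finset.prod_const_one, one_mul,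
    Pi.mul_apply, Pi.inv_apply]
  exact (mul_div_cancel₀ _ (prod_zpow_ne (fun i => t0 i x) _)).symm

namespace Fg

variable (h : Fg e m z m' j r)
include h

theorem bz_eq (a : R → ℤ) : bz m'.L a = h.ctr.up (bz m.L a) := by
  simp only [bz, h.L, map_prod, map_zpow]

theorem vl (x : m'.X) : m'.vl x = m.vl (r x) := Prod.ext h.l (funext fun a => h.y a x)

theorem sec_iff {a : J} {L : LB m.R} : m'.y a ∈ H0 m'.N (h.ctr.up L) ↔ m.y a ∈ H0 m.N L :=
  h.ctr.mem_up.trans ⟨fun ⟨t, b, c⟩ => (show t = m.y a from funext fun x => by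
    rw [← h.ctr.left x, ← h.y, c]) ▸ b, fun b => ⟨_, b, funext (h.y a)⟩⟩

theorem sec : m'.Sec W ↔ m.Sec W := forall_congr' fun _ => by rw [h.bz_eq, h.sec_iff]

theorem sol : m'.Sol F ↔ m.Sol F := by
  simp only [Sol, h.l, h.sec, h.vl, h.ctr.left.surjective.forall]

theorem typ : m'.Typ g d ↔ m.Typ g d := by
  simp only [Typ, h.ctr.gen_eq, h.L, h.ctr.deg_up]

theorem conn : m'.Conn ↔ m.Conn := h.ctr.conn_iff

theorem stable (a : m.Stable θ) : m'.Stable θ := by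
  rw [Stable, ω_eq] at a
  rw [Stable, ω_eq' e, h.bz_eq]
  exact h.ctr.stable_up a

theorem cmp (x : m'.X) : m'.cmp x = r ⁻¹' m.cmp (r x) := by
  have a := AC.sat_cmp (r x)
  have b := AC.sat_cmp x
  refine (AC.Sat.cmp_subset ⟨a.1.preimage h.ctr.continuous_r, fun u c v f =>
    (h.ctr.r_jn f).elim (fun k => mem_preimage.2 (k ▸ mem_preimage.1 c)) (a.2 _ c _)⟩
      (AC.mem_cmp_self _)).antisymm fun y c => ?_
  have o : ∀ y ∉ range j, ∀ z ∉ range j, y ∈ m'.cmp x → z ∈ m'.cmp x := fun y hy z hz f =>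
    (h.ctr.conn_out hy).isPreconnected.subset_isClopen b.1 ⟨y, hy, f⟩ hz
  obtain ⟨f, k⟩ := h.ctr.lift (u := (· ∈ m'.cmp x))
    (fun y hy z hz => propext ⟨o y hy z hz, o z hz y hy⟩) fun _ _ f => propext (b.jn f)
  exact (f y).mpr (AC.Sat.cmp_subset (U := j ⁻¹' m'.cmp x) ⟨b.1.preimage h.ctr.liso.cont,
    fun u c v l => (k u v l).mp c⟩ ((f x).mp (AC.mem_cmp_self x)) c)

theorem pre_cmp (x : m'.X) : j ⁻¹' m'.cmp x = m.cmp (r x) :=
  Set.ext fun y => by rw [h.cmp, mem_preimage, mem_preimage, h.ctr.left]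

theorem r_p (n : Option (Ch.Mk ν κ)) : r (m'.p (e n)) = n.elim z m.p := h.ctr.r_mark n

open Classical in
theorem degOn_ω {U : Set m'.X} (hU : IsClopen U) : degOn (m'.ω * bz m'.L θ) U =
    (if m'.p (e none) ∈ U then 1 else 0) + degOn (m.ω * bz m.L θ) (j ⁻¹' U) := by
  rw [ω_eq' e, ω_eq, h.bz_eq]
  exact h.ctr.degOn_omega_up hU

theorem not_un (a : m.Stable θ) : ¬m'.Un θ (e none) := fun b => by
  rw [Un, h.degOn_ω (AC.sat_cmp _).1, if_pos (AC.mem_cmp_self _), h.pre_cmp] at b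
  have := a _ (AC.sat_cmp (r (m'.p (e none)))).1 ⟨_, AC.mem_cmp_self _⟩
  omega

theorem ctyp {x : m'.X} {T : Set (Ch.Mk ν κ)} (a : m.CTyp (r x) g d T) :
    m'.CTyp x g d (e '' {n | n.elim (z ∈ m.cmp (r x)) (· ∈ T)}) := by
  classical
  have k : ∀ n, m'.p (e n) ∈ m'.cmp x ↔ n.elim z m.p ∈ m.cmp (r x) := fun n => by
    rw [h.cmp, mem_preimage, h.r_p]
  refine ⟨?_, fun i => ?_, e.surjective.forall.2 fun n => ?_⟩
  · have b := h.degOn_ω (θ := 0) (AC.sat_cmp x).1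
    rw [bz_zero, bz_zero, mul_one, mul_one, h.pre_cmp, LC.degOn_ω (AC.sat_cmp _).1,
      LC.degOn_ω (AC.sat_cmp _).1, a.1, ← e.sum_comp, Fintype.sum_option] at b
    simp only [k, Option.elim] at b
    omega
  · rw [h.L, h.ctr.degOn_up (AC.sat_cmp x).1, h.pre_cmp, a.2.1]
  · rw [k, e.injective.mem_set_image]
    rcases n with _ | n
    exacts [Iff.rfl, a.2.2 n]

/-- `ω'_log = r^* ω_log (q)` -/
theorem exists_ω : ∃ w ∈ H0 m'.N (m'.ω / m'.R.pt (m'.p (e none)) / h.ctr.up m.ω),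
    (∀ y, w y ≠ 0) ∧ ∀ x ≠ z, Sm m.N x → x ∉ m.P →
      w (j x) * m.R.d (fun y => m'.R.e (j x) (j y)) x = 1 := by
  rw [ω_eq' e, ω_eq]
  exact h.ctr.exists_omega

theorem mem_iff (h₂ : Fg e m₂ z₂ m₂' j₂ r₂) {f : m.X ≃ m₂.X} {f' : m'.X ≃ m₂'.X}
    (hf : LIso m.R m₂.R f) (hf' : LIso m'.R m₂'.R f') (v : ∀ x, f' (j x) = j₂ (f x)) {i : R}
    {s : m'.X → ℂ} : s ∈ H0 m'.N (hf'.pb (m₂'.L i) / m'.L i) ↔
      ∃ t ∈ H0 m.N (hf.pb (m₂.L i) / m.L i), s = fun y => t (r y) := by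
  rw [← h.ctr.mem_up, map_div, h.L, h₂.L, div_eq_mul_inv, div_eq_mul_inv]
  exact ((eqv_up h.ctr h₂.ctr hf hf' v _).mul (.refl _)).H0

theorem isoD_up (h₂ : Fg e m₂ z₂ m₂' j₂ r₂) {f : m.X ≃ m₂.X} {t : R → m.X → ℂ}
    (a : IsoD W A m m₂ f t τ) (hz : f z = z₂ ∨ Jn m₂.N (f z) z₂)
    (hs : ∀ i ∈ A, m₂.y i ∈ H0 m₂.N (bz m₂.L (W.w i))) : ∃ f' : m'.X ≃ m₂'.X,
      IsoD W A m' m₂' f' (fun i y => t i (r y)) τ ∧ ∀ x, f' (j x) = j₂ (f x) := by
  obtain ⟨f', b, c, k, v⟩ := h.ctr.iso_up h₂.ctr a.liso a.node a.mark hz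
  refine ⟨f', ⟨b, a.unit, c, e.surjective.forall.2 k,
    fun i => (h.mem_iff h₂ a.liso b v).2 ⟨_, a.mem i, rfl⟩, fun i x => a.ne i _,
    fun _ q => isEmptyElim q, by rw [h.l, h₂.l, a.l], fun i hi x => ?_⟩, v⟩
  rw [h.vl, ← a.y i hi, h₂.y]
  by_cases l : x ∈ range j
  · obtain ⟨x, rfl⟩ := l
    rw [v, h.ctr.left, h₂.ctr.left]
  · rw [h.ctr.out _ l, h₂.ctr.out _ (out_range v l)]
    exact (hz.elim (congrArg _) ((mem_H0_iff.1 (hs i hi)).2 _ _)).symm

theorem surj_iff (hb : m.Stable θ) : Surjective j ↔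
    2 ≤ degOn (m'.ω * bz m'.L θ) (connectedComponent (m'.p (e none))) := by
  rw [Stable, ω_eq] at hb
  rw [ω_eq' e, h.bz_eq]
  exact h.ctr.surj_iff hb

theorem isoD_down (h₂ : Fg e m₂ z₂ m₂' j₂ r₂) (hb : m.Stable θ) (hb₂ : m₂.Stable θ)
    {f' : m'.X ≃ m₂'.X} {t : R → m'.X → ℂ} (a : IsoD W A m' m₂' f' t τ) : ∃ f : m.X ≃ m₂.X,
      IsoD W A m m₂ f (fun i x => t i (j x)) τ ∧ (f z = z₂ ∨ Jn m₂.N (f z) z₂) ∧
        ∀ x, f' (j x) = j₂ (f x) := by
  obtain ⟨f, b, c, k, l, v⟩ := h.ctr.iso_down h₂.ctr a.liso a.node (fun n => a.mark (e n)) (by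
    rw [h.surj_iff hb, h₂.surj_iff hb₂, ← a.mark, ← image_cc a.liso,
      a.degOn_ωL (exists_comp (R := m'.R) _).1])
  refine ⟨f, ⟨b, a.unit, c, k, fun i => ?_, fun i x => a.ne i _, fun _ q => isEmptyElim q,
    by rw [← h.l, ← h₂.l, a.l], fun i hi x => ?_⟩, l, v⟩
  · obtain ⟨s, o, u⟩ := (h.mem_iff h₂ b a.liso v).1 (a.mem i)
    simpa only [u, h.ctr.left _] using o
  · have := a.y i hi (j x)
    rwa [v, h₂.y, h₂.ctr.left, h.vl, h.ctr.left] at this

end Fg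

theorem exists_fg_down [DecidableEq R] (hF : F.Good) (hs : m'.Sol F) (hb : m'.Stable F.θ)
    (hu : ¬m'.Un F.θ (e none)) : ∃ (m : AM Λ R J ν κ) (z : m.X) (m'' : AM Λ R J ν' κ') (j : _)
      (r : _), Fg e m z m'' j r ∧ Iso F.toWt univ m'' m' ∧ m.Stable F.θ := by
  obtain ⟨X, _, _, _, R₀, N, p, c, j, r, h, a, b⟩ := exists_ctr_down (L' := bz m'.L F.θ) m'.nd
    (fun n => m'.sm (e n)) (m'.inj.comp e.injective) (hs.degOn_cc hF)
    (by rw [← ω_eq' e]; exact hb) (mt (un_iff_unst hF hs hb).2 hu)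
  obtain ⟨L, y, t, f, k⟩ := exists_fg_of_ctr h hs.2.1 (hs.degOn_zero hF (by omega))
  refine ⟨_, _, _, _, _, f, k.iso, fun U l n => ?_⟩
  have o := b U l n
  have u := fun i => k.degOn_L i (j '' U)
  rw [ω_eq]
  rw [degOn_mul, h.liso.degOn_pb h.left.injective l, degOn_bz] at o
  simp only [Equiv.coe_refl, image_id, h.degOn_up (h.liso.isClopen_image l),
    h.left.injective.preimage_image] at u
  rw [degOn_mul, degOn_bz]
  simpa only [u] using o

end AM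

end Vale.Agent.P269
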