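import Vale.Agent.P287Q.G.Fg.Ct
import Vale.Agent.P287Q.G.Fg.Dm
import Vale.Agent.P269.Fg.Ln
import Vale.Agent.P287Q.G.G3.JetA

/-!
# The joint chart: the cotangent line at the new point
-/

set_option linter.unusedSectionVars false
set_option linter.style.haveILetI false

namespace Vale.Agent.P269

open P291Z Set Function Topology Filter Cv Ch MvPolynomial Jc Holo

variable {S Λ R J K K' ν κ ν' κ' : Type} [Fintype S] [Fintype Λ] [Fintype R] [Fintype J] [Fintype K]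
  [Fintype K'] [Fintype ν] [Fintype κ] [Fintype ν'] [Fintype κ']

namespace FgNew

variable {ι ι' : Type} [Fintype ι] [DecidableEq ι] [Fintype ι'] {ch : Ch ι J} {F : Fam S Λ R J K}
  {Z : Set (ch.WF ν κ Λ)} {ℓ : R → ι → ℤ} {n : Mk ν κ} {j : J} {k : ℕ}

theorem hm_inv {A : Type} [NormedRing A] [NormedAlgebra ℂ A] {χ : A → ℂ} (h : Tq.Hm χ) :
    Tq.Hm fun a => (χ a)⁻¹ :=
  ⟨by rw [h.one, inv_one], fun a b ha hb => by rw [h.mul a b ha hb, mul_inv],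
    fun a ha => (h.cont a ha).inv₀ (h.isUnit ha).ne_zero⟩

theorem hm_pow {A : Type} [NormedRing A] [NormedAlgebra ℂ A] {θ : A → ι' → ℂ} (h : Tq.Hm θ)
    (w : ι' → ℤ) : Tq.Hm fun a => ∏ i, θ a i ^ w i :=
  ⟨by simp [h.one], fun a b ha hb => by rw [h.mul a b ha hb, prod_zpow_mul],
    fun a ha => ((an_prod_zpow analyticAt_id (isUnit_pi_iff.1 (h.isUnit ha)) w).continuousAt).comp
      (h.cont a ha)⟩

theorem hm_dup (n : Mk ν κ) (g : ι' → ι) :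
    Tq.Hm fun (a : ch.AF ν κ S) i => (dup a.2).2.2 n (g i) :=
  ⟨rfl, fun _ _ _ _ => rfl, fun _ _ => Continuous.continuousAt (by simp only [dup]; fun_prop)⟩

/-- a field that vanishes to the order `k` at a marked point -/
theorem line [IsAct (actF F.toWt) Z] (ho : Orb.Orb (ch.AF ν κ S)ˣ (Holo.Sp (actF F.toWt) Z))
    (hc : ch.Cuts) (hF : F.Inv) (hw : ∀ j i, ch.wd j i = ∑ r, F.w j r * ℓ r i)
    (hZ : Z ⊆ ch.solF ν κ F) (hk : k ≠ 0) (h : ∀ x ∈ Z, ∀ γ, IsBranch ch.o (crv x.2) γ →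
      γ 0 = x.2.p n → analyticOrderAt (fun t => fld x.2 (γ t) j) 0 = k) {χ : ch.AF ν κ S → ℂ}
    (hχ : Tq.Hm χ) (e : ∀ s, IsUnit s → chT (F.wt j) (F.w j)
      (s.1, fun r => ∏ i, (dup s.2).2.2 n i ^ ℓ r i) = χ s * Base.chz ch.χ ((dup s.2).2.2 n)) :
    (k : ℂ) • hcls ((ch.sdψ S Λ n).eu (actF F.toWt) Z) = Tq.lcq (actF F.toWt) Z χ := by
  classical
  have hb : ∀ x ∈ Z, x.2 ∈ ch.base _ := fun x hx => (hZ hx).1.2.1
  have o := hc.okψ (S := S) (F := F.toWt) hb n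
  have an : ∀ x ∈ Z, ∀ {γ}, IsBranch ch.o (crv x.2) γ → AnalyticAt ℂ (fun t => fld x.2 (γ t) j) 0 :=
    fun x hx _ a => an_fld (hb x hx) (fun c hc => ((mem_solF.1 (hZ hx)).2 c hc).1 j) a
  have d : ∀ x ∈ Z, ∀ v ∈ (ch.sdψ S Λ n).B x, v ∉ (ch.sdψ S Λ n).N x → (x, v) ∈ jD F n j k :=
    fun x hx v a b => ⟨hZ hx, fun γ c d => (Base.dv_iff_le (an x hx c)).2 (h x hx γ c d).ge, a, b⟩
  refine o.line ho hχ (φ := fun x v => if v ∈ (ch.sdψ S Λ n).N x then 0 else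
    jF n j k (x, v) / rsd x.2 n) (fun x hx v hv w hw z => ?_) (fun a ha x hx v hv => ?_)
    fun x hx => ?_
  · by_cases h1 : v ∈ (ch.sdψ S Λ n).N x
    · rw [if_pos h1, if_pos (add_mem (Submodule.smul_mem _ _ h1) hw), mul_zero]
    by_cases h2 : z = 0
    · rw [h2, zero_smul, zero_add, if_pos hw, zero_pow hk, zero_mul]
    obtain ⟨h3, h4⟩ := jF_smul (v' := z • v + w) (d x hx v hv h1) h2
      (by rwa [add_sub_cancel_left])
    rw [if_neg h1, if_neg h3.2.2.2, h4, mul_div_assoc]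
  · by_cases h1 : v ∈ (ch.sdψ S Λ n).N x
    · rw [if_pos h1, if_pos (o.famN.inv x hx a ha v h1), mul_zero]
    obtain ⟨h3, h4⟩ := jF_act hF hw ha (d x hx v hv h1)
    have h5 : rsd (actF F.toWt a x).2 n = Base.chz ch.χ ((dup a.2).2.2 n) * rsd x.2 n :=
      rsd_act (x := scl _ x.2) (hb x hx) (isUnit_dupF ha) n
    rw [if_neg h1, if_neg h3.2.2.2, h4, h5, e a ha, mul_assoc, mul_div_assoc,
      mul_div_mul_left _ _ (show Base.chz ch.χ _ ≠ 0 from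
        prod_zpow_ne ((Cv.isUnit_iff.1 (isUnit_dupF ha)).2.2 n) _)]
  obtain ⟨v, Φ, h1, h2, h3⟩ := an_jF hc n (hZ hx)
  obtain ⟨h3, h4⟩ := h3 j k
  obtain ⟨l, hl⟩ := hc.cut
  obtain ⟨Ψ, h5, h6⟩ := exists_an_rsd hl (hb x hx) n
  obtain ⟨h7, h8⟩ := h2.self_of_nhds (hb x hx)
  have h9 : Ψ x.2 ≠ 0 := h6.self_of_nhds (hb x hx) ▸ rsd_ne (hb x hx) n
  refine ⟨v, fun y => Φ j k y / Ψ y.2, h8, div_ne_zero (fun z => ?_) h9,
    h1.continuousAt.continuousWithinAt, (h3.continuousAt.div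
      (h5.continuousAt.comp continuousAt_snd) h9).continuousWithinAt,
    eventually_nhdsWithin_iff.2 ?_⟩
  · obtain ⟨γ, a, b⟩ := exists_branch_p (hb x hx) n
    have := (Base.dv_iff_le (an x hx a)).1 ((jF_eq_zero (d x hx _ h7 h8)).1
      ((h4.self_of_nhds (d x hx _ h7 h8)).trans z) γ a b)
    rw [h x hx γ a b, Nat.cast_le] at this
    omega
  · filter_upwards [h2, h4, (continuous_snd.tendsto x).eventually h6] with y a b c hy
    obtain ⟨a1, a2⟩ := a (hb y hy)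
    exact ⟨a1, by rw [if_neg a2, b (d y hy _ a1 a2), c (hb y hy)]⟩

theorem chr [DecidableEq R] {c : Jc J R} {W : Wt S Λ R J} (h : c.Ok W) (τ : S → ℂ)
    (t : O2 R → ℂ) : chT (W.jc.wt (lk none)) (W.jc.w (lk none)) (τ, fun r => ∏ i, t i ^ c.ℓ r i) =
      (∏ i, t (.inr i) ^ c.D₂.ch.χ i)⁻¹ * Base.chz c.ch.χ t := by
  have a : ∀ f : R3 R → ℂ, ∏ r, f r ^ W.jc.w (lk none) r = f (.inr none) := fun f => by
    simp [Wt.jc]
  have b : ∏ i, τ i ^ W.jc.wt (lk none) i = 1 := by simp [Wt.jc]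
  rw [chT, a, b, one_mul]
  change ∏ i, t i ^ c.ch.wd (lk none) i = _
  rw [h.wd, h.χ, Base.chz, Fintype.prod_sum_type, Fintype.prod_sum_type, mul_comm]
  simp only [Sum.elim_inl, Sum.elim_inr, Option.elim, Pi.neg_apply, zpow_neg,
    Finset.prod_inv_distrib, Pi.zero_apply, zpow_zero, Finset.prod_const_one, mul_one]

end FgNew

namespace Jc

variable [DecidableEq R] {c : Jc J R} {W : Wt S Λ R J} {F : Fam S Λ R J K} [IsEmpty κ] [IsEmpty κ']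
  {e : Option (Mk ν κ) ≃ Mk ν' κ'} {x y : c.ch.WF ν' κ' Λ} {K₀ : RD R} {b : ℕ}
  {U₁ : Set (c.D₁.ch.WF ν' κ' Λ)} {U₂ : Set (c.D₂.ch.WF ν κ Λ)}
  {Φ : Quo (actC F.toWt) (unv (Z0 F c.D₂.ch ν κ)) → Quo (actF F.toWt) (Z0 F c.D₁.ch ν' κ')}

theorem Pk.new (P : c.Pk e F K₀ b U₁ U₂) (h : Cp e P.ok Φ) : FgN F e Φ := by
  obtain ⟨_, _, _, _, -, D₁⟩ := P.ok₁.exists_dm P.abs
  obtain ⟨_, _, _, _, -, D₂⟩ := P.ok₂.exists_dm P.abs
  haveI := D₁.gd.isActZ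
  haveI := D₂.gdC.isActZ
  haveI := h.act
  have h0 : ∀ x ∈ c.Z e F.j3, x ∈ c.T e F.j0 := fun x hx =>
    ((mem_T (by simp [disjoint_left])).1 hx.2).1
  have h1 := psiF_res D₁.gd.orbZ P.ok.num₁.cuts Z0_base h.orb P.ok.num.cuts
    (fun x hx => ⟨hx.1.1.2.1, (P.ok.dom₁ (h0 x hx)).nod⟩) h.m₁
    (fun x hx => ⟨(P.ok.dom₁ (h0 x hx)).crv_f P.ok.num₁.cuts, fun _ => rfl⟩) (e none)
  have h2 := FgNew.hm_pow (FgNew.hm_dup (S := S) (ch := c.ch) (e none) .inr) c.D₂.ch.χ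
  have h3 := FgNew.line (F := F.j3) (j := lk none) (n := e none) h.orb P.ok.num.cuts P.std₃.inv
    P.ok.lat.wd inter_subset_left P.ok.k_ne (fun x hx γ a b =>
      ((mem_T0.1 (h0 x hx)).2.2.2.1 none γ a).trans
        (congrArg _ (if_pos ⟨rfl, 1, b.trans (one_smul _ _).symm⟩))) (FgNew.hm_inv h2)
    fun s _ => FgNew.chr P.ok _ _
  refine (H.map_bijective_of_homeomorph (h.hom.homeomorph _)).1 ?_
  change H.map h.m₂.map _ = H.map h.m₂.map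
    (Tq.lcq (actC F.toWt) _ fun s => ∏ i, s.2 i ^ c.D₂.ch.χ i)
  rw [H.map_smulC, H.map_hcls _ (cocycle_pull h.emb.continuous
      (psiF_cocycle D₁.gd.orbZ P.ok.num₁.cuts Z0_base _)), pull_pull,
    show Φ ∘ h.m₂.map = h.m₁.map from _root_.funext h.comm, ← h1, psiF_eq,
    hcls_neg ((P.ok.num.cuts.okψ (fun x hx => hx.1.1.2.1) _).cocycle h.orb), smul_neg,
    h.m₂.map_lcq h.orb D₂.gdC.orbZ (FgNew.hm_pow (θ := Prod.snd)
      ⟨rfl, fun _ _ _ _ => rfl, fun _ _ => continuousAt_snd⟩ _)]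
  exact (congrArg Neg.neg (h3.trans (lcq_inv h.orb h2))).trans (neg_neg _)

end Jc

end Vale.Agent.P269
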