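import Vale.Agent.P287Q.G.Fg.Mult
import Vale.Agent.P287Q.G.Fg.Div
import Vale.Agent.P287Q.G.Fg.Dict

/-!
# The joint chart: the cotangent lines at the old points
-/

set_option linter.unusedSectionVars false

namespace Vale.Agent.P269

open P291Z Set Function Topology Filter Cv Ch MvPolynomial Jc Holo

variable {S Λ R J K K' ν κ ν' κ' : Type} [Fintype S] [Fintype Λ] [Fintype R] [Fintype J] [Fintype K]
  [Fintype K'] [Fintype ν] [Fintype κ] [Fintype ν'] [Fintype κ'] [DecidableEq R]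

namespace FgOld

variable {ι : Type} [Fintype ι] [DecidableEq ι] {ch : Ch ι J} {W : Wt S Λ R J}
  {Z : Set (ch.WF ν κ Λ)} {n : Mk ν κ}

theorem ml_comp {W W' P : Type} [TopologicalSpace W] [TopologicalSpace W'] [AddCommGroup P]
    [Module ℂ P] [TopologicalSpace P] {T : Set W} {T' : Set W'} {f : W → ch.WC ν κ Λ}
    {B N : W → Submodule ℂ P} {L : P → V ch.M} (h : Ml n T f B N L) {g : W' → W}
    (hg : Continuous g) (m : MapsTo g T' T) :
    Ml n T' (fun y => f (g y)) (fun y => B (g y)) (fun y => N (g y)) L := fun y₀ hy hd =>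
  let ⟨η, η₀, a, b, u, b0, u0, ev⟩ := h (g y₀) (m hy) hd
  ⟨η, η₀, a, b ∘ g, u ∘ g, b0, u0, ((hg.continuousWithinAt.tendsto_nhdsWithin m).eventually ev).mono
    fun _ c => ⟨c.1.comp hg.continuousWithinAt m, c.2.1.comp hg.continuousWithinAt m, c.2.2⟩⟩

/-- the complement of a section is dense in the universal curve -/
theorem dense_off [IsAct (actF W) Z] (hZ : ∀ x ∈ Z, x.2 ∈ ch.base _) (n : Mk ν κ) :
    Dense (range (secC W hZ n))ᶜ := fun q => by
  obtain ⟨y, rfl⟩ := Quot.exists_rep q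
  have hN := (hZ _ y.2.1).2.2.1.nod
  obtain ⟨γ, a, b⟩ := Psi.exists_br hN y.2.2
  refine map_mem_closure (s := {y : unv Z | ¬OnD n y.1}) continuous_quot_mk (closure_subtype.2
    (mem_closure_of_tendsto (f := fun t => (y.1.1, γ t)) (b := 𝓝[≠] 0)
      (tendsto_const_nhds.prodMk_nhds (b ▸ a.holo.continuousAt.tendsto.mono_left
        nhdsWithin_le_nhds)) ?_)) fun y h => mt (mk_mem_range_secC hZ n y).1 h
  filter_upwards [nhdsWithin_le_nhds a.mem, a.eventually_off (z := fun _ : Unit => y.1.1.2.p n) hN]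
    with t h1 h2
  exact ⟨⟨(y.1.1, γ t), y.2.1, h1⟩, fun ⟨_, e⟩ => h2 () (.of_smul (crv_ne h1) e), rfl⟩

end FgOld

namespace Jc

open FgOld

variable {c : Jc J R} {W : Wt S Λ R J} {F : Fam S Λ R J K} [IsEmpty κ] [IsEmpty κ']
  {e : Option (Mk ν κ) ≃ Mk ν' κ'} {x y : c.ch.WF ν' κ' Λ} {K₀ : RD R} {b : ℕ}
  {U₁ : Set (c.D₁.ch.WF ν' κ' Λ)} {U₂ : Set (c.D₂.ch.WF ν κ Λ)}
  {Φ : Quo (actC F.toWt) (unv (Z0 F c.D₂.ch ν κ)) → Quo (actF F.toWt) (Z0 F c.D₁.ch ν' κ')}

theorem Ct.old_deriv {h : c.Ok W} (t : Ct e h x) (y : t.C.X) :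
    ∃ d : ℂ, deriv (br t.A t.π₂ y) 0 = d • rV .inr (deriv (br t.B t.π (t.j y)) 0) := by
  have b : br t.A t.π₂ y =ᶠ[𝓝 0] (rV Sum.inr ∘ br t.B t.π (t.j y)) ∘
      fun τ => t.C'.R.e (t.j y) (t.j (t.C.R.i y τ)) :=
    ((t.C.R.tends_i y).eventually (t.ctr.liso.ev_src y)).mono fun τ hτ => funext₂ fun i k => by
      simp only [br, LB.loc, comp_apply, rV_apply, t.C'.R.i_e hτ, t.B_eq, Ctr.up_φ, t.ctr.left _]
      exact congrArg (· / _) (congrFun (congrFun
        ((t.π_eq _).trans (congrArg _ (t.ctr.left _))).symm i) k)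
  exact ⟨_, b.deriv_eq.trans (((rV Sum.inr).hasFDerivAt.comp_hasDerivAt 0
    (an_br t.cr'.par.sec (t.j y)).differentiableAt.hasDerivAt).scomp_of_eq 0
      (t.ctr.liso.an y).differentiableAt.hasDerivAt (tr_zero ..).symm).deriv⟩

/-- off the divisor the contraction is an immersion at the marked point -/
theorem Ok.inj_off (h : c.Ok F.toWt) (hx : x ∈ c.T e F.j0) {n : Mk ν κ} (hn : ¬OnD n (h.f₂ e x))
    {v : V c.ch.M} (hv : v ∈ (c.ch.sdψ S Λ (e (some n))).B x)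
    (k : rV .inr v ∈ (c.D₂.ch.sdψ S Λ n).N (h.f₂ e x).1) :
    v ∈ (c.ch.sdψ S Λ (e (some n))).N x := by
  obtain ⟨t⟩ := h.exists_ct hx
  obtain ⟨y, hy⟩ := not_not.1 (mt (t.onD_iff n).2 hn)
  obtain ⟨s, s0, hs⟩ := t.cr'.mark (e (some n))
  rw [← hy] at hs
  have l := t.cr'.par.isBranch (t.j y)
  obtain ⟨a, h1⟩ := (mem_sdψ_B t.cr'.mem (l.const_smul t.cr'.par.cone s0)
    (by rw [br_zero, hs])).1 hv
  obtain ⟨b, h2⟩ := mem_sdψ_N.1 h1
  obtain ⟨b', h3⟩ := mem_sdψ_N.1 k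
  obtain ⟨d, h4⟩ := t.old_deriv y
  have h5 : v (.inr none) - a • deriv (fun z => s • br t.B t.π (t.j y) z) 0 (.inr none) =
      b (.inr none) • x.2.p (e (some n)) (.inr none) := congrFun h2 _
  have h6 : v (.inr none) = b' none • x.2.p (e (some n)) (.inr none) := congrFun h3 none
  have h7 : t.π₂ y none = t.π (t.j y) (.inr none) :=
    congrFun ((t.π_eq _).trans (congrArg _ (t.ctr.left y))).symm none
  rw [Dict.deriv_const_smul s l.holo, h6, hs, Dict.smul_ap] at h5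
  have := Psi.eq_zero (t.cr.par.isBranch y) (a := a * s (.inr none))
    (s := d * ((b' none - b (.inr none)) * s (.inr none))) (by
      rw [br_zero, h4]
      change _ • d • deriv (br t.B t.π (t.j y)) 0 (.inr none) = _ • t.π₂ y none
      rw [h7]
      linear_combination (norm := module) (-d) • h5)
  rwa [(mul_eq_zero.1 this).resolve_right (s0 _), zero_smul, sub_zero] at h1

theorem Pk.old (P : c.Pk e F K₀ b U₁ U₂) (h : Cp e P.ok Φ) : FgO F e Φ := fun n => by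
  obtain ⟨_, _, _, _, -, D₁⟩ := P.ok₁.exists_dm P.abs
  obtain ⟨_, _, _, _, -, D₂⟩ := P.ok₂.exists_dm P.abs
  obtain ⟨t, t1, t2, t3, t4⟩ := D₂.exists_div n
  refine ⟨t, t1, t2, ?_, t3⟩
  have := D₁.gd.isActZ
  have := D₂.gd.isActZ
  have := h.act
  have d := fun x (hx : x ∈ c.Z e F.j3) => P.ok.dom₁ (Z_T0 hx)
  have o := P.ok.num.cuts.okψ (S := S) (F := F.toWt.jc) (fun x hx => (d x hx).mem) (e (some n))
  have a := t4 h.m₂ (L := (rV .inr : V c.ch.M →L[ℂ] _)) h.orb o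
    ⟨fun _ _ => continuousOn_const, fun x hx w hw => ?_, fun x hx w hw => ?_,
      fun x hx a ha w hw => (Submodule.Quotient.eq _).1 ?_⟩
    (fun y hy => map_mem_closure Sp.continuous_val ((((dense_off Z0_base n).preimage
      h.hom.isOpenMap).preimage Sp.isOpenQuotientMap_mk.isOpenMap) ⟨y, hy⟩) fun z hz =>
        ⟨z.val_mem, fun f => hz ((mk_mem_range_secC _ n _).2 f)⟩)
    (fun y hy f v => P.ok.inj_off (Z_T0 hy) f) ?_
  · have b₁ := psiF_cocycle D₁.gd.orbZ P.ok.num₁.cuts Z0_base (e (some n))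
    have b₂ := (P.ok.num₂.cuts.okψ (S := S) (F := F.toWt) Z0_base n).cocycle D₂.gd.orbZ
    have b₃ := cocycle_pull continuous_prC b₂
    refine (H.map_bijective_of_homeomorph (h.hom.homeomorph _)).1 (show H.map h.m₂.map _ =
      H.map h.m₂.map _ from ?_)
    rw [H.map_hcls _ (cocycle_pull h.emb.continuous b₁), pull_pull,
      show Φ ∘ h.m₂.map = h.m₁.map from funext h.comm, ← psiF_res D₁.gd.orbZ P.ok.num₁.cuts Z0_base
        h.orb P.ok.num.cuts (fun x hx => ⟨(d x hx).mem, (d x hx).nod⟩) h.m₁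
        (fun x hx => ⟨(d x hx).crv_f P.ok.num₁.cuts, fun _ => rfl⟩),
      psiF_eq, psiF_eq, map_neg, hcls_neg (o.cocycle h.orb), hcls_neg b₃, map_add, map_neg,
      H.map_hcls _ b₃, H.map_hcls _ t1, a, neg_add_rev, add_right_comm, neg_add_cancel, zero_add]
  · have := Psi.Tg_map (rV .inr) (mapsTo_image _ _) hw
    rwa [← P.ok.crv₂ (Z_T0 hx)] at this
  · obtain ⟨b, rfl⟩ := Psi.mem_Nr.1 hw
    exact Psi.mem_Nr.2 ⟨fun i => b (.inr i), rfl⟩
  · obtain n | q := n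
    exacts [rfl, isEmptyElim q.1]
  · have := ml_comp (P.ok.ml P.ok₂.inv P.ok₂.sm n) (continuous_kill (T := y1 '' F.mov))
      fun x (hx : x ∈ c.Z e F.j3) =>
        have f := (mem_T (BunA.disj₂.mono_left (image_subset_range _ _))).1 (P.zr₂ hx).2
        (mem_T BunA.disj₂).2 ⟨f.1, fun j g => f.2 j fun i => g (image_subset_range _ _ i)⟩
    simp only [P.ok.f₂_zr (A := y1 '' F.mov) (by simp) (by simp)] at this
    exact this

end Jc

end Vale.Agent.P269
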