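import Vale.Agent.P287Q.G.Fg.Ct
import Vale.Agent.P287Q.G.Fg.Dm
import Vale.Agent.P287Q.G.Map.IndL

/-!
# The joint chart: index classes
-/

set_option linter.unusedSectionVars false

namespace Vale.Agent.P269

open P291Z Set Function Topology Filter Cv Ch MvPolynomial Jc Holo

variable {S Λ R J K K' ν κ ν' κ' : Type} [Fintype S] [Fintype Λ] [Fintype R] [Fintype J] [Fintype K]
  [Fintype K'] [Fintype ν] [Fintype κ] [Fintype ν'] [Fintype κ'] [DecidableEq R]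

namespace Jc

theorem pull_rep {X Y : Type} [TopologicalSpace X] [TopologicalSpace Y] (f : C(X, Y)) (a : H Y) :
    hcls (pull f (rep a)) = H.map f a :=
  (H.map_hcls f (Classical.epsilon fun z : Zs Y => H.mk z = a).2).symm.trans (congrArg _
    ((hcls_val _).trans (Classical.epsilon_spec (p := fun z : Zs Y => H.mk z = a) (H.mk_surj a))))

theorem tw_of {X Y Y' Z : Type} [TopologicalSpace X] [TopologicalSpace Y] [TopologicalSpace Y']
    [TopologicalSpace Z] {m : C(Z, X)} (hm : IsHomeomorph m) {Φ : X → Y} (hΦ : Continuous Φ)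
    {p : X → Y'} (hp : Continuous p) {m₁ : C(Z, Y)} {m₂ : C(Z, Y')} (e₁ : ∀ z, Φ (m z) = m₁ z)
    (e₂ : ∀ z, p (m z) = m₂ z) {a : J → PowerSeries (Hev Y)} {a' : J → PowerSeries (Hev Y')}
    (h : ∀ j, PowerSeries.map (Hev.map m₁).toRingHom (a j) =
      PowerSeries.map (Hev.map m₂).toRingHom (a' j)) (Θ : MvPolynomial (J × ℕ) ℂ) :
    hcls (pull Φ (rep (aeval (fun x : J × ℕ => PowerSeries.coeff x.2 (a x.1)) Θ).1)) =
      hcls (pull p (rep (aeval (fun x : J × ℕ => PowerSeries.coeff x.2 (a' x.1)) Θ).1)) := by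
  refine (pull_rep ⟨Φ, hΦ⟩ _).trans (.trans ?_ (pull_rep ⟨p, hp⟩ _).symm)
  refine (show Injective (H.map m) from (H.map_bijective_of_homeomorph (hm.homeomorph _)).1) ?_
  rw [H.map_map, H.map_map, ContinuousMap.ext (f := .comp ⟨Φ, _⟩ m) (g := m₁) e₁,
    ContinuousMap.ext (f := .comp ⟨p, _⟩ m) (g := m₂) e₂, ← Hev.coe_map, ← Hev.coe_map,
    comp_aeval_apply, comp_aeval_apply]
  refine congrArg Subtype.val (congrArg (aeval · Θ) (funext fun q => ?_))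
  have := congrArg (PowerSeries.coeff q.2) (h q.1)
  rwa [PowerSeries.coeff_map, PowerSeries.coeff_map] at this

variable {c : Jc J R} {W : Wt S Λ R J} {F : Fam S Λ R J K} [IsEmpty κ] [IsEmpty κ']
  {e : Option (Mk ν κ) ≃ Mk ν' κ'} {x y : c.ch.WF ν' κ' Λ} {K₀ : RD R} {b : ℕ}
  {U₁ : Set (c.D₁.ch.WF ν' κ' Λ)} {U₂ : Set (c.D₂.ch.WF ν κ Λ)}
  {Φ : Quo (actC F.toWt) (unv (Z0 F c.D₂.ch ν κ)) → Quo (actF F.toWt) (Z0 F c.D₁.ch ν' κ')}

/-- the index classes of the two copies of a field agree -/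
theorem Ok.indC_eq (h : c.Ok F.toWt) {Z : Set (c.ch.WF ν' κ' Λ)} [IsAct (actF F.toWt.jc) Z]
    (ho : Orb.Orb (c.ch.AF ν' κ' S)ˣ (Holo.Sp (actF F.toWt.jc) Z)) (hZ : Z ⊆ c.T e F.j0) (j : J) :
    indC F.toWt.jc Z (y1 j) = indC F.toWt.jc Z (y2 j) := by
  refine indC_link ho h.num.cuts (fun x a => (mem_T0.1 (hZ a)).2.1)
    (n := Sum.elim 0 (Sum.elim (fun o => o.elim 0 (F.w j)) 0)) ?_ ?_ (fun x a => ?_) ⟨rfl, rfl⟩
    fun x a => ⟨⟨trivial, (hZ a).1.1.1.2⟩, fun _ _ q => isEmptyElim q⟩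
  · rw [sum_lk (elim_sup _), wd_y1, wd_y2]
    funext i
    cases i <;> simp [h.wd, h.lat₁.wd, h.lat₂.wd]
  · refine (add_zero _).symm.trans (congrArg _ (Finset.sum_eq_zero ?_).symm)
    rintro (i | i) -
    exacts [zero_smul _ _, smul_zero _]
  · rintro (i | (_ | r) | i) k z hz
    exacts [(k rfl).elim, (k rfl).elim,
      ⟨_, ne_lk (hZ a) hz r, val_fld ((mem_T0.1 (hZ a)).2.2.1 _ z hz)⟩, (k rfl).elim]

theorem Pk.tw (P : c.Pk e F K₀ b U₁ U₂) (h : Cp e P.ok Φ) : FgT F Φ := fun Θ => by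
  obtain ⟨_, _, _, _, -, d₁⟩ := P.ok₁.exists_dm P.abs
  obtain ⟨_, _, _, _, -, d₂⟩ := P.ok₂.exists_dm P.abs
  have := d₁.gd.isActZ
  have := d₂.gd.isActZ
  have := h.act
  have T0 : c.Z e F.j3 ⊆ c.T e F.j0 := fun x a => ((mem_T (by simp [disjoint_left])).1 a.2).1
  have hb : ∀ x ∈ c.Z e F.j3, x.2 ∈ c.ch.base _ := fun x a => a.1.1.2.1
  have m := (eqM_unv F.toWt (Z0 F c.D₂.ch ν κ)).comp h.m₂
  have a := fun j => ((indC_res (D := c.D₁) (j := j) d₁.gd.orbZ P.ok.num₁.cuts Z0_base h.orb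
    P.ok.num.cuts hb h.m₁ (fun x a => let r := (P.ok.dom₁ (T0 a)).rel P.ok.num₁.cuts
      ⟨r.into, r.onto⟩) rfl).symm.trans (P.ok.indC_eq h.orb T0 j)).trans
    (indC_res' (D := c.D₂) (j := j) d₂.gd.orbZ P.ok.num₂.cuts Z0_base h.orb P.ok.num.cuts hb
      (fun _ => ⟨rfl, fun _ => rfl, fun _ => rfl⟩) m
      (fun x a => let r := P.ok.rel₂ (T0 a); ⟨r.into, r.onto⟩) rfl)
  exact tw_of h.hom h.emb.continuous continuous_prC h.comm (Quot.ind fun _ => rfl) a Θ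

end Jc

end Vale.Agent.P269
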