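import Vale.Agent.P287Q.G.Fg.Vir
import Vale.Agent.P287Q.G.Fg.Lift
import Vale.Agent.P287Q.G.Fg.Tw
import Vale.Agent.P287Q.G.Fg.New
import Vale.Agent.P287Q.G.Fg.Old
import Vale.Agent.P287Q.G.Vir.Std

/-!
# Forgetting a marked point
-/

set_option linter.unusedSectionVars false

namespace Vale.Agent.P269

open P291Z Set Function Topology Filter Cv Ch Jc Holo

variable {S Λ R J K ν κ ν' κ' : Type} [Fintype S] [Fintype Λ] [Fintype R] [Fintype J] [Fintype K]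
  [Fintype ν] [Fintype κ] [Fintype ν'] [Fintype κ'] [DecidableEq R]

namespace Jc

variable (c₁ c₂ : Ch (Option R) J)

/-- The degrees of the links. -/
noncomputable def lw (o : Option R) : O2 R → ℤ := Sum.elim (o.elim c₁.χ ℓs) (-o.elim c₂.χ ℓs)

/-- The degrees of the vanishing fields. -/
def za (b : Bool) : O2 R → ℕ := bif b then Sum.elim 0 (c₂.a none) else Sum.elim (c₁.a none) 0

/-- The degrees of the Hilbert points. -/
noncomputable def ja : Option (J3 J R) → O2 R → ℕ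
  | none => Sum.elim (c₁.a none) fun _ => 4
  | some (.inl (.inl j)) => Sum.elim (c₁.a (some j)) 0
  | some (.inl (.inr j)) => Sum.elim 0 (c₂.a (some j))
  | some (.inr (.inl o)) => fun i => (lw c₁ c₂ o i).toNat + 1
  | some (.inr (.inr b)) => za c₁ c₂ b

/-- The joint chart of two charts. -/
noncomputable def of : Jc J R where
  ch :=
    { M := Sum.elim c₁.M c₂.M
      o := .inl none
      g := c₁.g
      m := Sum.elim c₁.m c₂.m
      a := ja c₁ c₂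
      h := fun l => (∑ i, ja c₁ c₂ l i * Sum.elim c₁.m c₂.m i + 1 - c₁.g).toNat
      k := c₁.k
      bω := Sum.elim c₁.bω fun _ => 4
      b := Sum.elim (Sum.elim (fun j => Sum.elim (c₁.b j) 0) fun j => Sum.elim 0 (c₂.b j))
        (Sum.elim (fun o i => (-lw c₁ c₂ o i).toNat + 1) (za c₁ c₂)) }
  bω₁ := c₁.bω
  bω₂ := c₂.bω
  a1 _ _ := rfl
  b1 _ _ := rfl
  a2 _ _ := rfl
  b2 _ _ := rfl
  z1 _ := rfl
  z2 _ := rfl

variable {c₁ c₂}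

theorem of_D₁ (o : c₁.o = none) (h : ∀ l, c₁.h l = (∑ i, c₁.a l i * c₁.m i + 1 - c₁.g).toNat) :
    (of c₁ c₂).D₁.ch = c₁ := by
  have a : (of c₁ c₂).D₁.ch.a = c₁.a := funext fun l => by cases l <;> rfl
  have b : (of c₁ c₂).D₁.ch.h = c₁.h := funext fun l => by
    rw [h]
    cases l <;> simp [of, ja, za, -Fintype.sum_option]
  cases c₁
  simp only [Res.ch] at a b o ⊢
  rw [a, b, o]
  rfl

theorem of_D₂ (o : c₂.o = none) (h : ∀ l, c₂.h l = (∑ i, c₂.a l i * c₂.m i + 1 - c₂.g).toNat)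
    (g : c₁.g = c₂.g) (k : c₁.k = c₂.k) : (of c₁ c₂).D₂.ch = c₂ := by
  have a : (of c₁ c₂).D₂.ch.a = c₂.a := funext fun l => by cases l <;> rfl
  have b : (of c₁ c₂).D₂.ch.h = c₂.h := funext fun l => by
    rw [h, ← g]
    cases l <;> simp [of, ja, za, -Fintype.sum_option]
  cases c₂
  simp only [Res.ch] at a b o g k ⊢
  rw [a, b, o, ← g, ← k]
  rfl

theorem of_ok {W : Wt S Λ R J} (e₁ : (of c₁ c₂).D₁.ch = c₁) (e₂ : (of c₁ c₂).D₂.ch = c₂)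
    (n₁ : Num₀ c₁) (n₂ : Num₀ c₂) (l₁ : c₁.Lat W ℓs) (l₂ : c₂.Lat W ℓs) (h4 : ∀ i, 4 ≤ c₁.a none i)
    (pos : 0 < ∑ i, c₁.χ i) (m : ∀ r, ∑ i, ℓs r i * c₁.m i = ∑ i, ℓs r i * c₂.m i) :
    (of c₁ c₂).Ok W := by
  have o : c₁.o = none := (congrArg Ch.o e₁).symm
  have g : c₁.g = c₂.g := (congrArg Ch.g e₂ :)
  have χ : (of c₁ c₂).ch.χ = Sum.elim c₁.χ 0 := funext fun i => by
    cases i <;> simp [Ch.χ, of, ja, o, Pi.single_apply]
  have n1 : ∀ {a : Option R → ℕ}, a ≠ 0 → (Sum.elim a 0 : O2 R → ℕ) ≠ 0 := fun h e =>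
    h (funext fun i => congrFun e (.inl i))
  have n2 : ∀ {a : Option R → ℕ}, a ≠ 0 → (Sum.elim 0 a : O2 R → ℕ) ≠ 0 := fun h e =>
    h (funext fun i => congrFun e (.inr i))
  refine ⟨rfl, ⟨fun l => ?_, ⟨none, fun i => ?_⟩, n₁.k_ne, (o ▸ n₁.m_ne : c₁.m none ≠ 1), fun i => ?_, ?_⟩,
    e₁.symm ▸ n₁, e₂.symm ▸ n₂, e₁.symm ▸ l₁, e₂.symm ▸ l₂, by rw [e₁, χ], fun o => ?_,
    fun b => funext fun i => sub_self _, by rwa [e₁], m, fun _ => rfl⟩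
  · rcases l with _ | (j | j) | o | _ | _
    · exact fun e => absurd (congrFun e (.inr none)) (by simp [of, ja])
    exacts [n1 (n₁.a_ne _), n2 (n₂.a_ne _), fun e => Nat.succ_ne_zero _ (congrFun e (.inl none)),
      n1 (n₁.a_ne _), n2 (n₂.a_ne _)]
  · cases i
    exacts [h4 _, le_rfl]
  · cases i
    · exact n₁.M_eq _
    · exact (n₂.M_eq _).trans (g ▸ rfl)
  · rw [χ]
    simpa [-Fintype.sum_option] using pos.ne'
  · rw [e₁, e₂]
    funext i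
    change (((lw c₁ c₂ o i).toNat + 1 : ℕ) : ℤ) - ((-lw c₁ c₂ o i).toNat + 1 : ℕ) = lw c₁ c₂ o i
    omega

variable [IsEmpty κ] [IsEmpty κ'] {e : Option (Mk ν κ) ≃ Mk ν' κ'} {F : Fam S Λ R J K}

theorem fg_of {c : Jc J R} (e₁ : c.D₁.ch = c₁) (e₂ : c.D₂.ch = c₂) (h : c.Ok F.toWt) (hA : F.Abs)
    {K₀ : RD R} {b : ℕ} {U₁ : Set (c₁.WF ν' κ' Λ)} {U₂ : Set (c₂.WF ν κ Λ)}
    (h₁ : c₁.Ok F (F.tdeg c₁) K₀ ℓs b U₁) (h₂ : c₂.Ok F (F.tdeg c₂) K₀ ℓs b U₂)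
    (hl : SurjOn (h.f₂ e) (c.Z e F.j3) (unv (Z0 F c.D₂.ch ν κ)))
    {Φ : Quo (actC F.toWt) (unv (Z0 F c₂ ν κ)) → Quo (actF F.toWt) (Z0 F c₁ ν' κ')}
    (hΦ : FgP F e Φ) : FgV F Φ ∧ FgT F Φ ∧ FgN F e Φ ∧ FgO F e Φ := by
  subst e₁ e₂
  have P : c.Pk e F K₀ b U₁ U₂ := ⟨h, hA, h₁, h₂, hl⟩
  obtain ⟨a, b⟩ := P.cp hΦ
  exact ⟨b, P.tw a, P.new a, P.old a⟩

end Jc

/-- **Forgetting a marked point.** -/
theorem St.forget : St.Forget := by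
  intro S Λ R J K ν κ ν' κ' _ _ _ _ _ _ _ _ _ _ _ _ F k g d e hN hA _ hk
  obtain ⟨K₀, hR⟩ := hN.reg
  obtain ⟨b, hB⟩ := hN.sm
  have hF := hN.toGood
  filter_upwards [hF.ok ν κ hR hB hk g d] with D ⟨hD, U₂, h₂⟩
  filter_upwards [hF.ok ν' κ' hR hB hk g d] with D' ⟨hD', U₁, h₁⟩
  obtain ⟨Φ, hΦ⟩ := Fam.exists_fgPt (g := g) (d := d) e hF hA hk hD hD'
  have e₁ := of_D₁ (c₁ := F.sch ν' κ' k D' g d) (c₂ := F.sch ν κ k D g d) rfl fun _ => rfl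
  have e₂ := of_D₂ (c₁ := F.sch ν' κ' k D' g d) (c₂ := F.sch ν κ k D g d) rfl (fun _ => rfl) rfl rfl
  have h := of_ok e₁ e₂ h₁.num h₂.num h₁.lat h₂.lat (fun _ => hD'.le)
    ((sum_χ _ _ _ hD').symm ▸ one_pos) fun r => by
      have a := Fam.chart_eu (F := F) (k := k) (D := D) (n := Fintype.card (Mk ν κ)) (g := g)
        (d := d) (Pi.single r 1)
      have b := Fam.chart_eu (F := F) (k := k) (D := D') (n := Fintype.card (Mk ν' κ')) (g := g)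
        (d := d) (Pi.single r 1)
      have c := b.trans a.symm
      simp only [Ch.eu, Pi.single_apply, ite_mul, one_mul, zero_mul, Finset.sum_ite_eq',
        Finset.mem_univ, if_true] at c
      exact add_right_cancel (sub_left_inj.1 c)
  obtain ⟨a, b, c, f⟩ := fg_of e₁ e₂ h hA h₁ h₂ (h.lift hF hA hk hD hD' e₁ e₂) hΦ
  exact ⟨Φ, a.1, hΦ.range hF hA hk hD hD', hΦ.clopen hF hA hk hD hD', hΦ, a.2, b, c, f⟩

end Vale.Agent.P269
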