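import Vale.Agent.P287Q.G.Fg.PtB
import Vale.Agent.P287Q.G.WK.Dil

/-!
# The forgetful map, the sections, the evaluation maps and the selectors on points
-/

set_option linter.unusedSectionVars false

namespace Vale.Agent.P269

open P291Z Set Function Topology Filter Cv

theorem Cv.Ctr.swap {X X' α : Type} [TopologicalSpace X] [TopologicalSpace X'] [T2Space X]
    [CompactSpace X] [T2Space X'] [CompactSpace X'] [Fintype α] [DecidableEq α] {Q : RS X}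
    {Q' : RS X'} {N : Finset (X × X)} {N' : Finset (X' × X')} {p : α → X} {p' : Option α → X'}
    {j : X → X'} {r : X' → X} {n : α} (h : Ctr Q Q' N N' p p' (p n) j r) :
    Ctr Q Q' N N' p (fun a => p' (Equiv.swap none (some n) a)) (p n) j r := by
  refine ⟨h.liso, h.left, h.out, h.nd, h.nd', h.sm, h.inj, fun _ => h.sm' _,
    h.inj'.comp (Equiv.injective _), ?_⟩
  rcases h.alt with ⟨-, -, a⟩ | ⟨a, b, e, c, ⟨m, d, f, g, i⟩ | ⟨_, _, -, d, -⟩⟩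
  · exact absurd (h.inj' ((a none).trans (a (some n)).symm)) nofun
  · obtain rfl := h.inj d
    refine .inr ⟨a, by rwa [Equiv.swap_apply_left], e, c, .inl ⟨m, d, by rwa [Equiv.swap_apply_right],
      fun m' k => ?_, i⟩⟩
    rw [Equiv.swap_apply_of_ne_of_ne (Option.some_ne_none _) fun e => k (Option.some_injective _ e)]
    exact g m' k
  · exact (d.elim (fun e => (h.sm n _ e).1 rfl) fun e => (h.sm n _ e).2 rfl).elim

variable {S Λ R J K ν κ ν' κ' : Type} [Fintype S] [Fintype Λ] [Fintype R] [Fintype J] [Fintype K]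
  [Fintype ν] [Fintype κ] [Fintype ν'] [Fintype κ']

theorem AM.Fg.swap [DecidableEq (Ch.Mk ν κ)] {e : Option (Ch.Mk ν κ) ≃ Ch.Mk ν' κ'}
    {m : AM Λ R J ν κ} {m' : AM Λ R J ν' κ'} {j r n} (h : AM.Fg e m (m.p n) m' j r) :
    AM.Fg ((Equiv.swap none (some n)).trans e) m (m.p n) m' j r :=
  ⟨h.ctr.swap, h.L, h.l, h.y⟩

namespace Ch

variable {ι : Type} [Fintype ι] [DecidableEq ι] {ch : Ch ι J} {F : Fam S Λ R J K} {ℓ : R → ι → ℤ}
  {Z : Set (ch.WF ν κ Λ)}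

variable (F Z) in
/-- the projection of the universal curve -/
def prM : C(Quo (actC F.toWt) (unv Z), Quo (actF F.toWt) Z) := ⟨prC _ Z, continuous_prC⟩

namespace GZ

variable (h : GZ F ℓ Z)

/-- a section of the universal curve -/
def secM (n : Mk ν κ) : C(Quo (actF F.toWt) Z, Quo (actC F.toWt) (unv Z)) :=
  ⟨secC _ h.base n, continuous_secC _ n⟩

/-- an evaluation map -/
noncomputable def evM (n : Mk ν κ) : C(Quo (actF F.toWt) Z, F.X F.cone) := (h.eqh_vl n (h.vl_cone n)).toEqv.qm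

/-- the universal map -/
noncomputable def unM : C(Quo (actC F.toWt) (unv Z), F.X F.cone) := (DilA.eqv_unv h).qm

theorem unM_secM (n : Mk ν κ) : h.unM.comp (h.secM n) = h.evM n :=
  ContinuousMap.ext (Quot.ind fun _ => rfl)

variable {x : Z} {m : AM Λ R J ν κ} {B : ι → LB m.R} {π : m.X → V ch.M}
  {u : m.X → ∀ l, ch.E l →L[ℂ] ℂ} {s : ν ⊕ κ → ι → ℂ} (a : RepD ℓ univ x.1 m B π u s)
include a

theorem evM_mk (n : Mk ν κ) (b : m.vl (m.p n) ∈ F.cone) :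
    h.evM n (Quo.mk _ x) = Quo.mk _ ⟨_, b⟩ :=
  Eq.symm (Quot.sound ⟨_, a.unit (a.ne _), a.vl h.wt n⟩)

theorem unM_mk (z : m.X) (b : m.vl z ∈ F.cone) :
    h.unM (Quo.mk _ ⟨(x.1, π z), x.2, a.cr.par.mem z⟩) = Quo.mk _ ⟨_, b⟩ :=
  congrArg (Quo.mk _) (Subtype.ext (a.vl_π z))

theorem secM_mk (n : Mk ν κ) :
    h.secM n (Quo.mk _ x) = Quo.mk _ (⟨(x.1, π (m.p n)), x.2, a.cr.par.mem _⟩ : unv Z) :=
  Eq.symm (Quot.sound ⟨(1, _), Prod.isUnit_iff.2 ⟨isUnit_one, isUnit_pi_iff.2 (a.ne _)⟩,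
    Prod.ext (actF_one _).symm (a.mark n)⟩)

end GZ

end Ch

namespace Fam

variable {F : Fam S Λ R J K} [DecidableEq R] {k D D' : ℕ} {g : ℤ} {d : R → ℤ} [IsEmpty κ]
  [IsEmpty κ'] {e : Option (Ch.Mk ν κ) ≃ Ch.Mk ν' κ'}
  {Φ Φ' : F.ModC ν κ k D g d → F.Mod κ' k D' g d (0 : ν' → J → ℕ)} (h : FgPt e Φ)
  (hF : F.Good) (hA : F.Abs) (hk : F.Big k) (hD : F.BigD k D) (hD' : F.BigD k D')
  (hz : Ch.GZ F ℓs (F.Z0 ν κ k D g d)) (hz' : Ch.GZ F ℓs (F.Z0 ν' κ' k D' g d))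
include h hF hA hk hD hD'

theorem FgPt.ev (n : Option (Ch.Mk ν κ)) (y : F.ModC ν κ k D g d) :
    hz'.evM (e n) (Φ y) = n.elim (hz.unM y) fun n => hz.evM n (Ch.prC _ _ y) := by
  obtain ⟨x, m, B, π, u, s, a, z, rfl⟩ := exists_mkC hD y
  obtain ⟨x', m', j, r, b, c⟩ := exists_fg e hF hA hk hD hD' a.rep z
  obtain ⟨_, _, _, _, c'⟩ := c.exists_data (Z0_base _ x'.2)
  have o := (Z0_sol hF.toInv a.rep).2.2
  rw [h _ _ _ _ _ _ a z _ _ _ _ b c, hz'.evM_mk c' _ ((Z0_sol hF.toInv c).2.2 _)]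
  simp only [b.vl, b.r_p]
  cases n
  exacts [(hz.unM_mk a z (o _)).symm, (hz.evM_mk a _ (o _)).symm]

theorem FgPt.sel {P : AM Λ R J ν κ → Prop} {P' : AM Λ R J ν' κ' → Prop} (hP : AM.Ivt F.toWt P)
    (hP' : AM.Ivt F.toWt P') (hPP : ∀ m z m' i q, AM.Fg e m z m' i q → m.Sol F → m.Stable F.θ →
      m.Typ g d → (P' m' ↔ P m)) : Φ ⁻¹' F.sel P' = Ch.prC _ _ ⁻¹' F.sel P := Set.ext fun y => by
  obtain ⟨x, m, B, π, u, s, a, z, rfl⟩ := exists_mkC hD y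
  obtain ⟨x', m', j, r, b, c⟩ := exists_fg e hF hA hk hD hD' a.rep z
  rw [mem_preimage, h _ _ _ _ _ _ a z _ _ _ _ b c]
  exact (mem_sel hP' c).trans ((hPP _ _ _ _ _ b (Z0_sol hF.toInv a.rep)
    (rep_stable hD a.rep (Z0_base _ x.2)) (rep_typ a.rep (Z0_base _ x.2))).trans
      (mem_sel hP a.rep).symm)

theorem FgPt.swap [DecidableEq (Ch.Mk ν κ)] {n : Ch.Mk ν κ}
    (h' : FgPt ((Equiv.swap none (some n)).trans e) Φ') (y) :
    Φ (hz.secM n y) = Φ' (hz.secM n y) := by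
  obtain ⟨x, m, rfl, a⟩ := exists_mk hD y
  obtain ⟨_, _, _, _, a'⟩ := a.exists_data (Z0_base _ x.2)
  obtain ⟨x', m', j, r, b, c⟩ := exists_fg e hF hA hk hD hD' a (m.p n)
  rw [hz.secM_mk a']
  exact (h _ _ _ _ _ _ a' _ _ _ _ _ b c).trans (h' _ _ _ _ _ _ a' _ _ _ _ _ b.swap c).symm

end Fam

theorem exists_mkEquiv (n : ℕ) :
    ∃ e : Option (Ch.Mk (Fin n ⊕ Fin 0) (Fin 0)) ≃ Ch.Mk (Fin (n + 1) ⊕ Fin 0) (Fin 0),
      e none = mk0 0 ∧ ∀ s, e (some (mk0 s)) = mk0 s.succ :=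
  let ε : ∀ n, Ch.Mk (Fin n ⊕ Fin 0) (Fin 0) ≃ Fin n := fun _ =>
    (Equiv.sumEmpty _ _).trans (Equiv.sumEmpty _ _)
  ⟨(ε n).optionCongr.trans ((finSuccEquiv n).symm.trans (ε _).symm),
    congrArg (ε _).symm finSuccEquiv_symm_none, fun s => congrArg (ε _).symm (finSuccEquiv_symm_some s)⟩

end Vale.Agent.P269
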