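import Vale.Agent.P269.Prop.Core
import Vale.Agent.P287Q.G.Map.Defs
import Vale.Agent.P287Q.G.Vir.Defs

/-!
# Convergence of units from bounds on the scalars that compare points of the curves
-/

set_option linter.unusedSectionVars false

namespace Vale.Agent.P269

open Set Function Topology Filter Holo Base Metric

namespace Ch

variable {J ι ν : Type} [Fintype J] [Fintype ι] [DecidableEq ι] [Fintype ν] {ch : Ch ι J}
  {x x' : ch.W ν} {d : ι → ℝ} {U : Ultrafilter ℕ} {y : ℕ → ch.W ν} {s : ℕ → (ch.A ν)ˣ}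

/-- The units `s n` move points near `x` to points near `x'`, with controlled scalars. -/
structure Sqt (d : ι → ℝ) (U : Ultrafilter ℕ) (y : ℕ → ch.W ν) (s : ℕ → (ch.A ν)ˣ)
    (x x' : ch.W ν) : Prop where
  mem : ∀ n, y n ∈ ch.base ν
  base : x ∈ ch.base ν
  base' : x' ∈ ch.base ν
  lim : Tendsto y U (𝓝 x)
  lim' : Tendsto (fun n => act (s n : ch.A ν) (y n)) U (𝓝 x')
  tm : ∀ (z : ℕ → V ch.M) (t : ℕ → ι → ℂ), ∀ a ∈ crv x, ∀ a' ∈ crv x',
    (∀ᶠ n in U, z n ∈ crv (y n) ∧ ∀ i, t n i ≠ 0) → Tendsto z U (𝓝 a) →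
    Tendsto (fun n => t n • gV (gU (s n)) (z n)) U (𝓝 a') →
    ∃ C : ℝ, ∀ᶠ n in U, ∀ i, |Real.log ‖t n i‖ - d i * Real.log ‖t n ch.o‖| ≤ C

namespace Sqt

variable (h : Sqt d U y s x x')
include h

theorem symm : Sqt d U (fun n => act (s n : ch.A ν) (y n)) (fun n => (s n)⁻¹) x' x := by
  refine ⟨fun n => act_mem_base _ (h.mem n), h.base', h.base, h.lim',
    by simpa only [act_inv_act] using h.lim, fun z t a ha a' ha' h1 h2 h3 => ?_⟩
  obtain ⟨C, k⟩ := h.tm _ (fun n => (t n)⁻¹) _ ha' _ ha (h1.mono fun n b => ⟨crv_smul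
    (act_inv_act (s n) (y n) ▸ (crv_actU (s n)⁻¹ _).ge (mem_image_of_mem _ b.1)) b.2,
      fun i => inv_ne_zero (b.2 i)⟩) h3 (h2.congr' (h1.mono fun n b => by
        simp only [gV_smul, inv_smul_smul' b.2]
        exact funext fun i => ((gU (s n) i).apply_symm_apply _).symm))
  refine ⟨C, k.mono fun n b i => ?_⟩
  have := b i
  simp only [Pi.inv_apply, norm_inv, Real.log_inv] at this
  rwa [← abs_neg, neg_sub', mul_neg, neg_neg, neg_neg] at this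

theorem limB : Tendsto (fun n => (⟨y n, h.mem n⟩ : ch.base ν)) U (𝓝 ⟨x, h.base⟩) :=
  tendsto_subtype_rng.2 h.lim

variable {c' : ℕ → V ch.M} {c c₀ : V ch.M} {G : (Fin (ch.M ch.o) → ℂ) →L[ℂ] Fin (ch.M ch.o) → ℂ}
  (hf : ∀ x : ch.base ν, LocFam ch.o (fun y : ch.base ν => crv y.1) Subtype.val x)
include hf

theorem exists_tor {lam : ℕ → ℂ} (h1 : ∀ᶠ n in U, c' n ∈ crv (y n) ∧ lam n ≠ 0)
    (h2 : Tendsto c' U (𝓝 c₀)) (h5 : Tendsto (fun n => lam n • (s n : ch.A ν).1 ch.o) U (𝓝 G))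
    (h6 : G (c₀ ch.o) ≠ 0) : ∃ c ∈ crv x', c ch.o = G (c₀ ch.o) ∧ ∃ t : ℕ → ι → ℂ,
      (∀ n, t n ch.o = lam n) ∧ (∀ᶠ n in U, ∀ i, t n i ≠ 0) ∧
        Tendsto (fun n => t n • gV (gU (s n)) (c' n)) U (𝓝 c) := by
  let t : ℕ → ι → ℂ := fun n i =>
    if i = ch.o then lam n else (‖gV (gU (s n)) (c' n) i‖ : ℂ)⁻¹
  have k0 : ∀ n, t n ch.o = lam n := fun n => if_pos rfl
  have k1 : ∀ᶠ n in U, ∀ i, gV (gU (s n)) (c' n) i ≠ 0 :=
    h1.mono fun n a i => (gV_ne i).2 (crv_ne a.1 i)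
  have k2 : Tendsto (fun n => (t n • gV (gU (s n)) (c' n)) ch.o) U (𝓝 (G (c₀ ch.o))) := by
    simp only [Pi.smul_apply', k0]
    exact tendsto_app h5 (tendsto_pi_nhds.1 h2 _)
  have k3 : ∀ i, ∃ v ≠ 0, Tendsto (fun n => (t n • gV (gU (s n)) (c' n)) i) U (𝓝 v) := fun i => by
    rcases eq_or_ne i ch.o with rfl | e
    · exact ⟨_, h6, k2⟩
    have a : ∀ᶠ n in U, ‖(t n • gV (gU (s n)) (c' n)) i‖ = 1 := k1.mono fun n a => by
      simp only [Pi.smul_apply', t, if_neg e, norm_smul, norm_inv, Complex.norm_real, norm_norm]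
      exact inv_mul_cancel₀ (norm_ne_zero_iff.2 (a i))
    obtain ⟨v, b⟩ := lim_of_bdd ⟨1, a.mono fun n => le_of_eq⟩
    exact ⟨v, norm_ne_zero_iff.1 ((tendsto_nhds_unique_of_eventuallyEq b.norm tendsto_const_nhds
      a).trans_ne one_ne_zero), b⟩
  choose c k4 k5 using k3
  have k6 : ∀ᶠ n in U, ∀ i, t n i ≠ 0 :=
    ((tendsto_pi_nhds.2 k5).eventually (eventually_ne k4)).mono fun n => ne_of_smul_ne
  refine ⟨c, by_contra fun hc => ?_, tendsto_nhds_unique (k5 _) k2, t, k0, k6, tendsto_pi_nhds.2 k5⟩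
  obtain ⟨n, a, b, d⟩ := (((h.symm.limB.prodMk_nhds (tendsto_pi_nhds.2 k5)).eventually
    ((hf _).usc c k4 hc)).and (h1.and k6)).exists
  exact a (crv_smul ((crv_actU (s n) (y n)).ge (mem_image_of_mem _ b.1)) d)

variable (hd : 0 < ∑ i, ch.χ i * d i) (hM : ∀ i, (ch.M i : ℤ) = ch.m i + 1 - ch.g)
include hd hM

/-- The factor `o`. -/
theorem lim_o : ∃ G, Tendsto (fun n => (s n : ch.A ν).1 ch.o) U (𝓝 G) := by
  refine lim_of_bdd (by_contra fun hn => ?_)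
  have h1 : Tendsto (fun n => ‖(s n : ch.A ν).1 ch.o‖) U atTop := tendsto_atTop.2 fun B =>
    (Ultrafilter.eventually_not.2 fun a => hn ⟨B, a⟩).mono fun n a => (not_le.1 a).le
  let lam : ℕ → ℂ := fun n => (‖(s n : ch.A ν).1 ch.o‖ : ℂ)⁻¹
  have h2 := h1.eventually_gt_atTop 0
  have h3 : ∀ᶠ n in U, ‖lam n • (s n : ch.A ν).1 ch.o‖ = 1 := h2.mono fun n a => by
    simp only [lam, norm_smul, norm_inv, Complex.norm_real, norm_norm]
    exact inv_mul_cancel₀ a.ne'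
  obtain ⟨G, h4⟩ := lim_of_bdd ⟨1, h3.mono fun n => le_of_eq⟩
  have h5 := h.base.2.2.1
  obtain ⟨c₀, h6, h7, h8⟩ : ∃ c₀ ∈ crv x, ¬Spc x c₀ ∧ G (c₀ ch.o) ≠ 0 := by
    by_contra! k
    have k1 := h5.span_top (hM ch.o) (p := fun c => ¬Spc x c) fun c hc =>
      ((h5.nod.frequently_not_node x.p hc).and_eventually self_mem_nhdsWithin).mono fun y a => by
        rintro (b | ⟨n, t, b⟩)
        exacts [a.1.2 b, a.1.1 n (Orb.of_smul (crv_ne a.2) b)]
    have k2 : G = 0 := ContinuousLinearMap.coe_injective (LinearMap.ext_on k1 (by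
      rintro _ ⟨c, a, rfl⟩
      exact k c a.1 a.2))
    have := tendsto_nhds_unique_of_eventuallyEq h4.norm tendsto_const_nhds h3
    simp [k2] at this
  obtain ⟨σ, rfl, a1, ε, a2⟩ := exists_disc (hf ⟨x, h.base⟩) h6 h7
  have a3 := h.limB.eventually a2
  have a4 : Tendsto (fun q : ℕ × ℂ => σ (y q.1, q.2)) (U ×ˢ 𝓝 0) (𝓝 (σ (x, 0))) :=
    a1.continuousAt.tendsto.comp ((h.lim.comp tendsto_fst).prodMk_nhds tendsto_snd)
  have a5 : Tendsto (fun n => σ (y n, 0)) U (𝓝 (σ (x, 0))) :=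
    a4.comp (tendsto_id.prodMk tendsto_const_nhds)
  have a6 : ∀ᶠ n in U, σ (y n, 0) ∈ crv (y n) := a3.mono fun n a => a.2.mem.self_of_nhds
  obtain ⟨c, b1, b2, t, b3, b4, b5⟩ := h.exists_tor hf (lam := lam) (a6.and (h2.mono fun n a => by
    simpa [lam] using a.ne')) a5 h4 h8
  obtain ⟨C, d3⟩ := h.tm _ t _ h6 _ b1 (a6.and b4) a5 b5
  obtain ⟨ζ, e1⟩ := exists_lin_one (crv_ne b1)
  obtain ⟨O, e2, m, e3, e4⟩ := exists_lb (hf ⟨x', h.base'⟩) b1
  obtain ⟨P, e5, r, e6, e7⟩ := eventually_prod_nhds_iff.1 (((h.symm.limB.comp tendsto_fst).prodMk_nhds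
    (b2 ▸ tendsto_app (h4.comp tendsto_fst) (tendsto_pi_nhds.1 a4 ch.o))).eventually
      ((hf ⟨x', h.base'⟩).near_o h.base'.2.2.1 b1 e1 e2))
  have f1 := a2.self_of_nhds
  obtain ⟨φ₀, -, f2⟩ := exists_rl h.base f1.2 h7
  obtain ⟨φ, f3⟩ := (a3.mono fun n a => (exists_rl (h.mem n) a.2
    (a.1.ord 0 (mem_ball_self a.1.pos))).imp fun _ a => a.2).choice
  have f4 := f2.tendsto h6 f1.2.imm (h.base.1 _) h.lim a5 ((an_deriv_snd a1).continuousAt.tendsto.comp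
    (h.lim.prodMk_nhds tendsto_const_nhds)) (a6.and f3)
  let τ : ℕ → ℂ → ι → ℂ := fun n w i => (ζ i ((t n • gV (gU (s n)) (σ (y n, w))) i))⁻¹
  have g1 : Tendsto (fun n => ∏ i, τ n 0 i ^ ch.χ i) U (𝓝 (∏ i, (ζ i (c i))⁻¹ ^ ch.χ i)) :=
    tendsto_finsetProd _ fun i _ => ((((ζ i).continuous.tendsto _).comp
      (tendsto_pi_nhds.1 b5 i)).inv₀ (by simp [e1])).zpow₀ _ (.inl (by simp [e1]))
  have g2 : Tendsto (fun n => ∏ i, t n i ^ ch.χ i) U (𝓝 0) := by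
    have k1 : Tendsto (fun n => (∑ i, ch.χ i * d i) * -Real.log ‖(s n : ch.A ν).1 ch.o‖ +
        ∑ i, |(ch.χ i : ℝ)| * C) U atBot :=
      tendsto_atBot_add_const_right _ _ ((tendsto_neg_atTop_atBot.comp
        (Real.tendsto_log_atTop.comp h1)).const_mul_atBot hd)
    refine squeeze_zero_norm' ?_ (Real.tendsto_exp_atBot.comp k1)
    filter_upwards [b4, d3] with n k2 k4
    have k5 : ∀ i, 0 < ‖t n i‖ := fun i => norm_pos_iff.2 (k2 i)
    rw [comp_apply, ← Real.log_le_iff_le_exp (norm_pos_iff.2 (Finset.prod_ne_zero_iff.2 fun i _ =>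
      zpow_ne_zero _ (k2 i))), norm_prod, Real.log_prod fun i _ => norm_ne_zero_iff.2
        (zpow_ne_zero _ (k2 i)), Finset.sum_mul, ← Finset.sum_add_distrib]
    refine Finset.sum_le_sum fun i _ => ?_
    have k6 := k4 i
    rw [b3, show Real.log ‖lam n‖ = -Real.log ‖(s n : ch.A ν).1 ch.o‖ by simp [lam]] at k6
    rw [norm_zpow, Real.log_zpow, ← sub_le_iff_le_add', mul_assoc, ← mul_sub]
    exact (le_abs_self _).trans ((abs_mul _ _).trans_le (by gcongr))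
  have g3 := (g1.mul (g2.mul f4)).norm
  rw [zero_mul, mul_zero, norm_zero] at g3
  have g4 := lt_min f1.1.pos e6
  refine (ge_of_tendsto g3 ?_).not_gt (mul_pos e3 (pow_pos g4 ch.k))
  filter_upwards [a3, b4, e5, f3, h.symm.limB.eventually e4] with n k1 k2 k3 k4 k5
  have k6 := (k1.1.act (s n)).smul (τ := fun _ => t n) (O' := univ) k1.1.pos le_rfl
    fun _ _ => ⟨analyticAt_const, k2, trivial⟩
  have k7 : ∀ w ∈ ball (0 : ℂ) (min ε r), AnalyticAt ℂ (τ n) w ∧ (∀ i, τ n w i ≠ 0) ∧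
      τ n w • t n • gV (gU (s n)) (σ (y n, w)) ∈ O := fun w k => by
    have k8 := ball_subset_ball (min_le_left _ _) k
    obtain ⟨k9, k10⟩ := e7 k3 (ball_subset_ball (min_le_right _ _) k) _ (k6.mem w k8)
      (by rw [Pi.smul_apply', b3]; rfl)
    exact ⟨AnalyticAt.pi fun i => (((ζ i).analyticAt _).comp
      (analyticAt_pi_iff.1 (k6.an w k8) i)).inv (k9 i), fun i => inv_ne_zero (k9 i), k10⟩
  have k8 := k7 0 (mem_ball_self g4)
  have k9 := mem_ball_self (x := (0 : ℂ)) k1.1.pos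
  exact k5 _ _ _ (k6.smul g4 (min_le_left _ _) k7) (Rl.disc (Rl.disc (τ := fun _ => t n)
    (γ := fun w => gV (gU (s n)) (σ (y n, w))) (by rw [deriv_gV]; exact (rel_act _).2 k4)
      ((k1.1.act (s n)).an 0 k9) analyticAt_const k2) (k6.an 0 k9) k8.1 k8.2.1)

/-- All factors. -/
theorem lim_g : ∃ G, Tendsto (fun n => (s n : ch.A ν).1) U (𝓝 G) := by
  obtain ⟨G, h1⟩ := h.lim_o hf hd hM
  obtain ⟨G', h2⟩ := h.symm.lim_o hf hd hM
  have : ∀ i, ∃ G, Tendsto (fun n => (s n : ch.A ν).1 i) U (𝓝 G) := fun i => by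
    refine lim_of_bdd (bdd_of_span (h.base.2.2.1.span_top (hM i) (p := fun _ => True) fun c hc =>
      (h.base.2.2.1.nod.frequently_not_node x.p hc).mono fun _ _ => trivial) ?_)
    rintro _ ⟨c₀, ⟨h3, -⟩, rfl⟩
    obtain ⟨c', a1, a2⟩ := (hf ⟨x, h.base⟩).exists_approx h3
    have a3 := a1.comp h.limB
    have a4 := h.limB.eventually a2
    have a5 : G' (G (c₀ ch.o)) = c₀ ch.o := tendsto_nhds_unique (tendsto_app h2 (tendsto_app h1
      tendsto_const_nhds)) (tendsto_const_nhds.congr fun n => ((gU (s n) _).symm_apply_apply _).symm)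
    obtain ⟨c, b1, b2, t, b3, b4, b5⟩ := h.exists_tor hf (lam := 1) (G := G) (a4.mono fun n a =>
      ⟨a, one_ne_zero⟩) a3 (by simpa using h1) fun e => crv_ne h3 _ (by rw [← a5, e, map_zero])
    obtain ⟨C, d3⟩ := h.tm _ t _ h3 _ b1 (a4.and b4) a3 b5
    obtain ⟨B, d4⟩ := bdd_of_lim (tendsto_pi_nhds.1 b5 i)
    refine ⟨_, tendsto_pi_nhds.1 a3 i, Real.exp C * B, ?_⟩
    filter_upwards [b4, d3, d4] with n k2 k4 k5
    have k6 := (abs_le.1 (k4 i)).1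
    rw [b3, Pi.one_apply, norm_one, Real.log_one, mul_zero, sub_zero,
      Real.le_log_iff_exp_le (norm_pos_iff.2 (k2 i)), Real.exp_neg] at k6
    rw [Pi.smul_apply', norm_smul] at k5
    rw [← inv_mul_le_iff₀ (Real.exp_pos C)]
    exact (mul_le_mul_of_nonneg_right k6 (norm_nonneg _)).trans k5
  choose G hG using this
  exact ⟨G, tendsto_pi_nhds.2 hG⟩

theorem lim_s : ∃ a, Tendsto (fun n => (s n : ch.A ν)) U (𝓝 a) := by
  obtain ⟨G, h1⟩ := h.lim_g hf hd hM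
  obtain ⟨G', h2⟩ := h.symm.lim_g hf hd hM
  have h3 : ∀ l, ∃ e, Tendsto (fun n => (s n : ch.A ν).2.1 l) U (𝓝 e) := fun l => by
    refine lim_of_bdd (bdd_of_span Submodule.span_univ fun v _ => ?_)
    obtain ⟨μ, rfl⟩ := h.base.1 l v
    refine ⟨_, tendsto_app (W.tendsto_Q h.lim l) tendsto_const_nhds, bdd_of_lim ((tendsto_app
      (W.tendsto_Q h.lim' l) (tendsto_app (tendsto_sub (ν := ν) (s₀ := (G', 0)) (h2.prodMk_nhds
        tendsto_const_nhds) _) (tendsto_const_nhds (x := μ)))).congr fun n => ?_)⟩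
    change (s n : ch.A ν).2.1 l ((y n).Q l (sub (s n : ch.A ν) _ (sub (↑(s n)⁻¹ : ch.A ν) _ μ))) = _
    rw [← sub_mul, Units.inv_mul, sub_one]
  have h4 : ∀ q i, ∃ e, Tendsto (fun n => (s n : ch.A ν).2.2 q i) U (𝓝 e) := fun q i => by
    obtain ⟨ζ, a1⟩ := exists_lin_one (crv_ne (h.base.2.2.2.1 q).1)
    have a2 := ((ζ i).continuous.tendsto _).comp (tendsto_pi_nhds.1 (W.tendsto_p h.lim q) i)
    have a3 := ((ζ i).continuous.tendsto _).comp (tendsto_app (tendsto_pi_nhds.1 h2 i)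
      (tendsto_pi_nhds.1 (W.tendsto_p h.lim' q) i))
    rw [a1] at a2
    refine ⟨_, (a3.div a2 one_ne_zero).congr' ((a2.eventually_ne one_ne_zero).mono fun n a => ?_)⟩
    refine (div_eq_iff a).2 ?_
    change ζ i ((gU (s n) i).symm (_ • gU (s n) i _)) = _
    rw [map_smul, map_smul, ContinuousLinearEquiv.symm_apply_apply]
    rfl
  choose e h3 using h3
  choose t h4 using h4
  exact ⟨(G, e, t), h1.prodMk_nhds ((tendsto_pi_nhds.2 h3).prodMk_nhds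
    (tendsto_pi_nhds.2 fun q => tendsto_pi_nhds.2 (h4 q)))⟩

end Sqt

/-- Units that move points near `x` to points near `x'` converge, if the scalars that compare points
of the curves are controlled by the distinguished one. -/
theorem lim_of_tame {ι : Type} [Fintype ι] [DecidableEq ι] {ch : Ch ι J} (hc : ch.Cuts)
    (hM : ch.Tight) {d : ι → ℝ} (hd : 0 < ∑ i, ch.χ i * d i) {U : Ultrafilter ℕ} {y : ℕ → ch.W ν}
    {s : ℕ → (ch.A ν)ˣ} {x x' : ch.W ν} (hy : ∀ n, y n ∈ ch.base ν) (hx : x ∈ ch.base ν)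
    (hx' : x' ∈ ch.base ν) (h1 : Tendsto y U (𝓝 x))
    (h2 : Tendsto (fun n => act (s n : ch.A ν) (y n)) U (𝓝 x'))
    (ht : ∀ (z : ℕ → V ch.M) (t : ℕ → ι → ℂ), ∀ a ∈ crv x, ∀ a' ∈ crv x',
      (∀ᶠ n in U, z n ∈ crv (y n) ∧ ∀ i, t n i ≠ 0) → Tendsto z U (𝓝 a) →
      Tendsto (fun n => t n • fun i => (s n : ch.A ν).1 i (z n i)) U (𝓝 a') →
      ∃ C : ℝ, ∀ᶠ n in U, ∀ i, |Real.log ‖t n i‖ - d i * Real.log ‖t n ch.o‖| ≤ C) :
    ∃ a : (ch.A ν)ˣ, Tendsto (fun n => (s n : ch.A ν)) U (𝓝 a) ∧ act (a : ch.A ν) x = x' := by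
  obtain ⟨l, hl⟩ := hc.cut
  have h : Sqt d U y s x x' := ⟨hy, hx, hx', h1, h2, ht⟩
  obtain ⟨a, k1⟩ := h.lim_s (locFam_base hl) hd (hM.eq hx)
  obtain ⟨b, k2⟩ := h.symm.lim_s (locFam_base hl) hd (hM.eq hx)
  exact ⟨⟨a, b, tendsto_nhds_unique (k1.mul k2) (tendsto_const_nhds.congr fun n =>
    (s n).mul_inv.symm), tendsto_nhds_unique (k2.mul k1) (tendsto_const_nhds.congr fun n =>
      (s n).inv_mul.symm)⟩, k1, tendsto_nhds_unique
        ((continuous_act.tendsto (a, x)).comp (k1.prodMk_nhds h1)) h2⟩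

end Ch

end Vale.Agent.P269
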