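import Vale.Agent.P287Q.G.Fg.Hol
import Vale.Agent.P287Q.G.Fg.RigA

/-!
# The joint chart: rigidity
-/

set_option linter.unusedSectionVars false

namespace Vale.Agent.P269

open P291Z Set Function Topology Filter Cv Ch MvPolynomial Jc Holo

variable {S Λ R J K K' ν κ ν' κ' : Type} [Fintype S] [Fintype Λ] [Fintype R] [Fintype J] [Fintype K]
  [Fintype K'] [Fintype ν] [Fintype κ] [Fintype ν'] [Fintype κ'] [DecidableEq R]

namespace FgR

variable {α : Type*} {l : Filter α}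

theorem log_bdd {E : Type*} [NormedAddCommGroup E] [NormedSpace ℂ E] {f g : α → E} {t : α → ℂ}
    {v w : E} (hv : v ≠ 0) (hw : w ≠ 0) (hf : Tendsto f l (𝓝 v)) (hg : Tendsto g l (𝓝 w))
    (h : ∀ᶠ n in l, f n = t n • g n) : ∃ C : ℝ, ∀ᶠ n in l, |Real.log ‖t n‖| ≤ C := by
  have a := norm_ne_zero_iff.2 hw
  have b : Tendsto (fun n => ‖t n‖) l (𝓝 (‖v‖ / ‖w‖)) :=
    (hf.norm.div hg.norm a).congr' ((h.and (hg.norm.eventually_ne a)).mono fun n k => by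
      rw [Pi.div_apply, k.1, norm_smul, mul_div_cancel_right₀ _ k.2])
  exact ⟨_, (b.log (div_ne_zero (norm_ne_zero_iff.2 hv) a)).abs.eventually_le_const (lt_add_one _)⟩

theorem tendsto_fld {ι : Type} [Fintype ι] [DecidableEq ι] {ch : Ch ι J} {x : ch.W ν} {c : V ch.M}
    {j : J} {y : α → ch.W ν} {z : α → V ch.M} (hx : x ∈ ch.base ν) (hc : c ∈ crv x)
    (hv : ∃ v, Val x j c v) (h1 : Tendsto y l (𝓝 x)) (h2 : Tendsto z l (𝓝 c))
    (h : ∀ᶠ n in l, z n ∈ crv (y n) ∧ ∃ v, Val (y n) j (z n) v) :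
    Tendsto (fun n => fld (y n) (z n) j) l (𝓝 (fld x c j)) := by
  obtain ⟨Φ, a, b⟩ := exists_fldU hx.1 (crv_ne hc) j
  have k := h1.prodMk_nhds h2
  rw [b.self_of_nhds hc hv]
  exact (a.continuousAt.tendsto.comp k).congr'
    ((h.and (k.eventually b)).mono fun n e => (e.2 e.1.1 e.1.2).symm)

theorem log_ℓs (t : Option R → ℂ) (r : R) :
    ∑ o, (ℓs r o : ℝ) * Real.log ‖t o‖ = Real.log ‖t (some r)‖ - Real.log ‖t none‖ := by
  simp [ℓs, Tgt.hat, Fintype.sum_option, Pi.single_apply, sub_eq_neg_add]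

theorem log_prod {ι : Type} [Fintype ι] {t : ι → ℂ} (ht : ∀ i, t i ≠ 0) (χ : ι → ℤ) :
    Real.log ‖∏ i, t i ^ χ i‖ = ∑ i, (χ i : ℝ) * Real.log ‖t i‖ := by
  rw [norm_prod, Real.log_prod fun i _ => norm_ne_zero_iff.2 (zpow_ne_zero _ (ht i))]
  simp only [norm_zpow, Real.log_zpow]

end FgR

open FgR

namespace Jc

variable {c : Jc J R} {W : Wt S Λ R J} {F : Fam S Λ R J K} [IsEmpty κ] [IsEmpty κ']
  {e : Option (Mk ν κ) ≃ Mk ν' κ'} {x y : c.ch.WF ν' κ' Λ}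

/-- The scalars that compare points of the curves are controlled by the distinguished one. -/
theorem Ok.tame (h : c.Ok F.toWt) (hx : x ∈ c.T e F.j0) {l : Filter ℕ} {y : ℕ → c.ch.WF ν' κ' Λ}
    {s : ℕ → c.ch.A (Mk ν' κ')} (hy : ∀ n, y n ∈ c.T e F.j0) (hs : ∀ n, IsUnit (s n))
    (h0 : ∀ n i, (s n).1 (.inr i) = 1) (h1 : Tendsto (fun n => (y n).2) l (𝓝 x.2))
    (h2 : Tendsto (fun n => act (s n) (y n).2) l (𝓝 x.2)) {z : ℕ → V c.ch.M} {t : ℕ → O2 R → ℂ}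
    {a a' : V c.ch.M} (ha : a ∈ crv x.2) (ha' : a' ∈ crv x.2)
    (h3 : ∀ᶠ n in l, z n ∈ crv (y n).2 ∧ ∀ i, t n i ≠ 0) (h4 : Tendsto z l (𝓝 a))
    (h5 : Tendsto (fun n => t n • fun i => (s n).1 i (z n i)) l (𝓝 a')) :
    ∃ C : ℝ, ∀ᶠ n in l, ∀ i, |Real.log ‖t n i‖ -
      (Sum.elim 1 0 : O2 R → ℝ) i * Real.log ‖t n c.ch.o‖| ≤ C := by
  have b0 := mem_T0.1 hx
  have k1 : ∀ i, ∃ C : ℝ, ∀ᶠ n in l, |Real.log ‖t n (.inr i)‖| ≤ C := fun i =>
    log_bdd (crv_ne ha' _) (crv_ne ha _) (tendsto_pi_nhds.1 h5 (.inr i))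
      (tendsto_pi_nhds.1 h4 (.inr i)) (.of_forall fun n => by rw [Pi.smul_apply', h0]; rfl)
  have k2 : ∀ r, ∃ C : ℝ, ∀ᶠ n in l, |Real.log ‖∏ i, t n i ^ c.ch.wd (lk (some r)) i‖| ≤ C :=
    fun r => by
      have v : ∀ᶠ n in l, z n ∈ crv (y n).2 ∧ ∃ v, Val (y n).2 (lk (some r)) (z n) v :=
        h3.mono fun n b => ⟨b.1, (mem_T0.1 (hy n)).2.2.1 _ _ b.1⟩
      have m : ∀ᶠ n in l, (t n • fun i => (s n).1 i (z n i)) ∈ crv (act (s n) (y n).2) :=
        h3.mono fun n b => crv_smul ((mem_crv_act (hs n)).2 ⟨_, b.1, rfl⟩) b.2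
      have w : ∀ᶠ n in l, Val (act (s n) (y n).2) (lk (some r)) (t n • fun i => (s n).1 i (z n i))
          ((∏ i, t n i ^ c.ch.wd (lk (some r)) i) * fld (y n).2 (z n) (lk (some r))) :=
        (h3.and v).mono fun n b => ((val_act (hs n)).2 (val_fld b.2.2)).smul b.1.2
      exact log_bdd (ne_lk hx ha' r) (ne_lk hx ha r) (tendsto_fld b0.2.1 ha' (b0.2.2.1 _ _ ha') h2
        h5 ((m.and w).mono fun n b => ⟨b.1, _, b.2⟩)) (tendsto_fld b0.2.1 ha (b0.2.2.1 _ _ ha) h1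
          h4 v) ((m.and w).mono fun n b => fld_eq b.1 b.2)
  have k3 : ∀ i, ∃ C : ℝ, ∀ᶠ n in l, |Real.log ‖t n i‖ -
      (Sum.elim 1 0 : O2 R → ℝ) i * Real.log ‖t n c.ch.o‖| ≤ C := by
    rintro ((_ | r) | i)
    · exact ⟨0, .of_forall fun n => by simp [h.o]⟩
    · obtain ⟨A, p1⟩ := k2 r
      obtain ⟨B, p2⟩ := k1 (some r)
      obtain ⟨C, p3⟩ := k1 none
      refine ⟨A + B + C, ?_⟩
      filter_upwards [p1, p2, p3, h3] with n q1 q2 q3 q4
      rw [log_prod q4.2, h.wd, Fintype.sum_sum_type] at q1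
      simp only [Sum.elim_inl, Sum.elim_inr, Option.elim, Pi.neg_apply, Int.cast_neg, neg_mul,
        Finset.sum_neg_distrib, log_ℓs fun o => t n (.inl o), log_ℓs fun o => t n (.inr o)] at q1
      rw [h.o, Sum.elim_inl, Pi.one_apply, one_mul, abs_le] at *
      constructor <;> linarith [q1.1, q1.2, q2.1, q2.2, q3.1, q3.2]
    · simpa using k1 i
  choose C k4 using k3
  obtain ⟨D, k5⟩ := Finite.exists_le C
  exact ⟨D, eventually_all.2 fun i => (k4 i).mono fun n b => b.trans (k5 i)⟩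

/-- **units in the kernel that move points near `x` to points near `x` tend to one** -/
theorem Ok.rig₂ (h : c.Ok F.toWt) (hx : x ∈ c.T e F.j0)
    (free : ∀ a, IsUnit a → c.θ₂ S e a = 1 → actF F.toWt.jc a x = x → a = 1) :
    Rig (actF F.toWt.jc) (c.T e F.j0) (c.θ₂ S e) x := by
  intro y a k h1 h2
  refine tendsto_iff_ultrafilter _ _ _ |>.2 fun U hU => ?_
  have e1 : ∀ n, (a n).1 = 1 := fun n => (θ₂_eq_one.1 (k n).2.2).1
  have p1 := (continuous_snd.continuousAt.tendsto.comp h1).mono_left hU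
  have p2 : Tendsto (fun n => act (dup (a n).2) (y n).2) U (𝓝 x.2) :=
    ((continuous_snd.continuousAt.tendsto.comp h2).congr fun n => by
      simp only [Function.comp, actF_snd, e1, Pi.one_apply, one_zpow, Finset.prod_const_one]
      exact congrArg _ (scl_one _)).mono_left hU
  have b0 := (mem_T0.1 hx).2.1
  obtain ⟨b, q1, -⟩ := lim_of_tame ⟨h.num.a_ne, h.num.cut⟩ h.num.M_eq (d := Sum.elim 1 0)
    (by simpa [h.χ, Fintype.sum_sum_type, -Fintype.sum_option] using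
      (show (0 : ℝ) < ∑ i, (c.D₁.ch.χ i : ℝ) by exact_mod_cast h.pos))
    (s := fun n => (isUnit_dupF (k n).2.1).unit) (fun n => (mem_T0.1 (k n).1).2.1) b0 b0 p1 p2
    fun z t v hv v' hv' => h.tame hx (fun n => (k n).1) (fun n => isUnit_dupF (k n).2.1)
      (fun n => (θ₂_eq_one.1 (k n).2.2).2.1) p1 p2 hv hv'
  let φ : c.ch.A (Mk ν' κ') → c.ch.AF ν' κ' S := fun s =>
    (1, s.1, s.2.1, fun n => s.2.2 (n.map id fun q => (q, false)))
  have c1 : Continuous φ := by fun_prop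
  have q2 : Tendsto a U (𝓝 (φ b)) := by
    refine (c1.continuousAt.tendsto.comp q1).congr fun n => Prod.ext (e1 n).symm ?_
    exact Prod.ext rfl (Prod.ext rfl (funext fun m => by cases m <;> rfl))
  have u := Cv.isUnit_iff.1 b.isUnit
  have q3 : IsUnit (φ b) := isUnitF_iff.2 ⟨fun _ => one_ne_zero,
    Cv.isUnit_iff.2 ⟨u.1, u.2.1, fun _ => u.2.2 _⟩⟩
  rwa [free _ q3 (tendsto_nhds_unique (((c.θ₂ S e).continuous.tendsto _).comp q2)
    (tendsto_const_nhds.congr fun n => (k n).2.2.symm)) (tendsto_nhds_unique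
      ((isActF_univ.an _ q3 x trivial).continuousAt.tendsto.comp (q2.prodMk_nhds
        (h1.mono_left hU))) (h2.mono_left hU))] at q2

end Jc

end Vale.Agent.P269
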