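import Vale.Agent.P287Q.G.Fg.Fib
import Vale.Agent.P287Q.G.Fg.Rig

/-!
# The joint chart: principal bundles
-/

set_option linter.unusedSectionVars false

namespace Vale.Agent.P269

open P291Z Set Function Topology Filter Cv Ch MvPolynomial Jc Holo

variable {S Λ R J K K' ν κ ν' κ' : Type} [Fintype S] [Fintype Λ] [Fintype R] [Fintype J] [Fintype K]
  [Fintype K'] [Fintype ν] [Fintype κ] [Fintype ν'] [Fintype κ'] [DecidableEq R]

namespace Jc

variable {c : Jc J R} {W : Wt S Λ R J} {F : Fam S Λ R J K} [IsEmpty κ] [IsEmpty κ']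
  {e : Option (Mk ν κ) ≃ Mk ν' κ'} {x y : c.ch.WF ν' κ' Λ} {K₀ : RD R} {b : ℕ}
  {U₁ : Set (c.D₁.ch.WF ν' κ' Λ)} {U₂ : Set (c.D₂.ch.WF ν κ Λ)}
  {Φ : Quo (actC F.toWt) (unv (Z0 F c.D₂.ch ν κ)) → Quo (actF F.toWt) (Z0 F c.D₁.ch ν' κ')}

theorem BunA.disj₁ : Disjoint (range (y1 : J → J3 J R)) (range lk) := by
  simp [disjoint_left]

theorem BunA.disj₂ : Disjoint (range (y2 : J → J3 J R)) (range lk) := by
  simp [disjoint_left]

open Module

open Classical in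
theorem BunA.sum_eq {A : Set (J3 J R)} (hA : A = range y2) :
    ∑ j, finrank ℂ (Tens c.ch.M (c.ch.b j)) * c.ch.h (some j) =
      ∑ j, finrank ℂ (Tens c.D₂.ch.M (c.D₂.ch.b j)) * c.D₂.ch.h (some j) +
        ∑ j with j ∉ A, finrank ℂ (c.ch.Th j) * c.ch.h (some j) := by
  rw [← Finset.sum_filter_add_sum_filter_not _ (· ∈ A)]
  refine congrArg (· + _) (Finset.sum_nbij c.D₂.φ (fun j _ => by simp [hA]) c.D₂.φ_inj.injOn
    (fun j hj => by simpa [hA] using hj) fun j _ => ?_).symm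
  rw [(c.D₂.rb j).toLinearEquiv.finrank_eq]

variable (h : c.Ok F.toWt) (hF : F.Inv)
include h hF

theorem Ok.et₂ : Et (actF F.toWt.jc) (actC F.toWt) (c.T e (F.ja (range y2)))
    (unv (c.D₂.ch.baseF ν κ F.B)) (c.θ₂ S e) (h.f₂ e) :=
  have k : ∀ {x}, x ∈ c.T e (F.ja (range y2)) → x ∈ c.T e F.j0 := fun hx =>
    ((mem_T BunA.disj₂).1 hx).1
  { one := θ₂_one
    mul := θ₂_mul
    surj := θ₂_surj
    usurj := fun _ => θ₂_unit
    maps := fun _ hx => h.maps₂ (k hx)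
    hol := fun _ hx => (h.hol₂ (k hx)).imp fun _ a =>
      ⟨a.1, a.2.filter_mono (nhdsWithin_mono _ fun _ => k)⟩
    eqv := fun _ ha _ hx => h.eqv₂ hF (k hx) ha
    fib := fun _ hx _ hy => h.fib₂ hx hy
    free := fun _ hx _ => h.free₂ (k hx) }

variable (hB : F.Sm b)
include hB

theorem Ok.bun₁ : Bun (actF F.toWt.jc) (actF F.toWt) (c.T e (F.ja (range y1)))
    (c.D₁.ch.baseF ν' κ' F.B) c.D₁.θF h.L₁.fF := by
  have k : c.T e (F.ja (range y1)) ⊆ Res.Lnk.T κ' c.D₁ (F.ja (range y1)) (c.ord e) := fun _ hx =>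
    ⟨hx.1, (h.dom₁ ((mem_T BunA.disj₁).1 hx).1).nod⟩
  have a := (h.amb₁ (e := e) hF).bun (κ := κ') (F := F.toWt) h.num₁.cuts h.num.cuts (fun _ => rfl)
    rfl h.num₁ h.num (h.gr BunA.disj₁) Fintype.card_sum hB
  exact a.mono k subset_rfl (fun _ hx => a.maps (k hx)) fun _ hx =>
    (((h.eventually_T hx).filter_mono nhdsWithin_le_nhds).and self_mem_nhdsWithin).mono
      fun _ b _ => b.1.2 b.2.1

theorem Ok.bun₂ : Bun (actF F.toWt.jc) (actC F.toWt) (c.T e (F.ja (range y2)))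
    (unv (c.D₂.ch.baseF ν κ F.B)) (c.θ₂ S e) (h.f₂ e) := by
  have k : ∀ {x}, x ∈ c.T e (F.ja (range y2)) → x ∈ c.T e F.j0 := fun hx =>
    ((mem_T BunA.disj₂).1 hx).1
  have : IsAct (actF F.toWt.jc) (c.T e (F.ja (range y2))) := isActF_of (ivt_T (Fam.inv_ja hF _))
  have : IsAct (actF F.toWt) (c.D₂.ch.baseF ν κ F.B) := isActF_of fun s a x hx =>
    actF_mem_baseF a hx (hF.invB _ (isUnit_S a) _ hx.1)
  refine (h.et₂ hF).bun (fun x hx y a H => h.rig₂ (k hx) (fun _ => h.free₂ (k hx)) y a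
    fun n => ⟨k (H n).1, (H n).2⟩) fun x => ?_
  have hy := h.maps₂ (k x.val_mem)
  obtain ⟨d', f', p'⟩ := h.mfd_T hB BunA.disj₂ x.val_mem
  obtain ⟨d, f, p⟩ := h.num₂.mfd_baseF hB hy.1
  refine ⟨d', _, p'.2, (h.num₂.mfdAt_unv ver_baseF hy p).2, ?_⟩
  have t := Fintype.card_congr e
  rw [dimM, Ch.dimB, finrank_A, BunA.sum_eq (A := (F.ja (range y2)).mov) rfl] at f'
  rw [Ch.dimB, finrank_A] at f
  rw [finrank_AU, finrank_AF, finrank_AF]
  simp only [Fintype.card_sum, Fintype.card_prod, Fintype.card_bool, Fintype.card_eq_zero (α := κ),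
    Fintype.card_eq_zero (α := κ'), Fintype.card_option (α := Mk ν κ)] at f f' t ⊢
  zify at t ⊢
  push_cast at f f'
  linear_combination f' - f - t

end Jc

end Vale.Agent.P269
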