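import Vale.Agent.P287Q.G.Grr.Fib
import Vale.Agent.P269.Grr.HG
import Vale.Agent.P287Q.G.Fg.Dm
import Vale.Agent.P287Q.G.Fg.UcD
import Vale.Agent.P287Q.G.WK.Dil
import Vale.Agent.P287Q.G.Br.Int
import Vale.Agent.P287Q.G.Prj.TgtM

/-!
# Integration of a class of degree two along the fibres of the universal curve
-/

set_option linter.unusedSectionVars false

namespace Vale.Agent.P269

open P291Z Set Function Topology Filter Holo

variable {S Λ R J K ι ν κ : Type} [Fintype S] [Fintype Λ] [Fintype R] [Fintype J] [Fintype K]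
  [Fintype ι] [DecidableEq ι] [Fintype ν] [Fintype κ] [DecidableEq R]

theorem FbI.fn_mul {X : Type} (f g : X → ℂ) : fn f * fn g = fn (f * g) :=
  IsDeg.ext_zero (by simpa using (isDeg_fn f).mul (isDeg_fn g)) (isDeg_fn _) fun x =>
    mul_val_of_isDeg (p := 0) (isDeg_fn f) _ [x] Nat.one_pos

/-- a locally constant function which is constant on the selected part -/
theorem FbI.cap_ind {X : Type} [TopologicalSpace X] [Nice X] {s : Set X} {u : X → ℂ}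
    (hu : IsLocallyConstant u) {z : ℂ} (h : ∀ x ∈ s, u x = z) (v : BM X) :
    cap (hcls (ind s)) (cap (hcls (fn u)) v) = z • cap (hcls (ind s)) v := by
  by_cases hs : supp (δ (ind s)) = ∅
  · have e : ind s * fn u = ind s * fn fun _ => z := by
      rw [ind_eq_fn, FbI.fn_mul, FbI.fn_mul]
      refine congrArg fn (funext fun x => ?_)
      by_cases hx : x ∈ s
      · exact congrArg (_ * ·) (h x hx)
      · simp [hx]
    have c : supp (δ (fn fun _ : X => z)) = ∅ := Orb.cocycle_fn.2 (IsLocallyConstant.const z)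
    rw [← cap_mul, ← hcls_mul hs (Orb.cocycle_fn.2 hu), e, hcls_mul hs c, cap_mul, Orb.cap_fn_const,
      map_smul]
  · rw [hcls, dif_neg hs]
    exact LinearMap.ext fun a => (cap_apply _ _ a).trans (by simp [cap_apply])

namespace Ch

variable {ch : Ch ι J} {F : Fam S Λ R J K} {e : K → ι → ℕ} {K₀ : RD R} {ℓ : R → ι → ℤ}
  {b d n r : ℕ} {U O : Set (ch.WF ν κ Λ)}

theorem Dmn.inter (h : Dmn F e O d n r) (hU : IsOpen U) (hi : Ivt (actF F.toWt) (O ∩ U))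
    (hZ : Z0 F ch ν κ ⊆ U) : Dmn F e (O ∩ U) d n r :=
  let ⟨V, a, b⟩ := h.opn
  ⟨h.num, h.gd.inter hU hi hZ, ⟨V ∩ U, a.inter hU, by rw [b, inter_assoc]⟩, h.inv,
    h.ver.opn ⟨U, hU, rfl⟩, h.str.inter hU hi⟩

/-- cocycles on the universal curve extend to a smaller domain -/
theorem Dmn.exists_ext (h : Dmn F e O d n r) {q : Coch (Quo (actC F.toWt) (unv (Z0 F ch ν κ)))}
    (hq : supp (δ q) = ∅) {k : ℤ} (h2 : IsDeg k q) :
    ∃ (O' : Set (ch.WF ν κ Λ)) (h' : Dmn F e O' d n r) (a : Coch (Quo (actC F.toWt) (unv O'))),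
      O' ⊆ O ∧ supp (δ a) = ∅ ∧ IsDeg k a ∧ pull (Quo.incl _ h'.gdC.dom.sub) a = q := by
  have := h.gd.dom.isAct
  have := h.gd.nice
  have := h.gdC.nice
  have := h.gdC.niceZ
  obtain ⟨b, h1, h3, -, h4⟩ := Grr.HG.tsurj (Taut.of_isClosedEmbedding h.gdC.isClosedEmbedding) q
  have c : IsClosed (prC F.toWt O '' supp (δ b)) :=
    (h.num.cuts.isPr_prC h.ver.base h.gd.dom.orb).isProperMap.isClosedMap _ (isClosed_supp _)
  obtain ⟨U, hU, e⟩ := isOpen_induced_iff.1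
    (c.isOpen_compl.preimage (f := Quo.mk (actF F.toWt)) continuous_quot_mk)
  have m : ∀ x : O, x.1 ∈ U ↔ Quo.mk _ x ∉ prC F.toWt O '' supp (δ b) := Set.ext_iff.1 e
  have i : Ivt (actF F.toWt) (O ∩ U) := fun g hg x hx => ⟨h.gd.ivt g hg x hx.1,
    (m ⟨_, h.gd.ivt g hg x hx.1⟩).2 ((mk_eq_iff (x := ⟨x, hx.1⟩)
      (x' := ⟨_, h.gd.ivt g hg x hx.1⟩)).2 ⟨g, hg, rfl⟩ ▸ (m ⟨x, hx.1⟩).1 hx.2)⟩
  have z : Z0 F ch ν κ ⊆ U := fun x hx => (m ⟨x, h.gd.dom.sub hx⟩).2 <| by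
    rintro ⟨y, hy, k⟩
    obtain ⟨y, rfl⟩ := Quot.mk_surjective y
    obtain ⟨g, hg, k⟩ := mk_eq_iff.1 k.symm
    exact h4 (Quo.mk _ ⟨y.1, mem_of_eq_of_mem k (h.gd.ivtZ g hg x hx), y.2.2⟩) (supp_eq_empty.1 hq _) hy
  have := (h.inter hU i z).gdC.nice
  refine ⟨_, h.inter hU i z, pull (Quo.incl _ (unv_mono inter_subset_left)) b, inter_subset_left,
    Grr.HG.cocycle_pull_near (EqM.incl (act := actC F.toWt)
      (unv_mono inter_subset_left)).map.continuous fun y => ?_, (h3 k h2).pull _, ?_⟩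
  · obtain ⟨y, rfl⟩ := Quot.mk_surjective y
    exact fun hy => (m ⟨_, y.2.1.1⟩).1 y.2.1.2 ⟨_, hy, rfl⟩
  · rw [pull_pull, ← h1]
    exact congrArg (pull · b) (funext (Quot.ind fun _ => rfl))

/-- **Integration along the fibres** against the virtual class. -/
theorem Ok.fibInt (h : ch.Ok F e K₀ ℓ b U) (hA : F.Abs)
    {q : Coch (Quo (actC F.toWt) (unv (Z0 F ch ν κ)))} (hq : supp (δ q) = ∅) (h2 : IsDeg 2 q) :
    ∃ u : Quo (actF F.toWt) (Z0 F ch ν κ) → ℂ, IsLocallyConstant u ∧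
      pshC F e _ (hcls q) = cap (hcls (fn u)) (virF F e _) ∧
      ∀ (x : Z0 F ch ν κ) (c : AC ν κ) (A : ι → Cv.LB c.R) (π : c.X → V ch.M)
        (hp : Cv.Par ch.o (crv x.1.2) c.N A π), (∀ n, Base.Orb (π (c.p n)) (x.1.2.p n)) → c.Conn →
        u (Quo.mk _ x) = ev c.R.fund (pull (fun z => (Quo.mk (actC F.toWt)
          ⟨(x.1, π z), x.2, hp.mem z⟩ : Quo (actC F.toWt) (unv (Z0 F ch ν κ)))) q) := by
  obtain ⟨O₀, d, n, r, s₀, D₀⟩ := h.exists_dm hA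
  obtain ⟨O, D, a, s, ha, h3, rfl⟩ := D₀.exists_ext hq h2
  have hd : Den F.toWt O := by
    obtain ⟨V, hV, e⟩ := D.opn
    exact e ▸ h.pr.den' (lev_cyc h.inv h.cuts 0) hV (e ▸ s.trans s₀)
  have := D.gd.dom.isAct
  obtain ⟨u, h4, h5, h6⟩ := Grr.fibInt D.gd.dom.orb D.mf D.num D.ver hd ha h3
  refine ⟨u ∘ Quo.incl _ D.gd.dom.sub, h4.comp_continuous D.gd.isClosedEmbedding.continuous, ?_,
    fun x c A π hp k k' => (h6 ⟨x.1, D.gd.dom.sub x.2⟩ c A π hp k k').trans ?_⟩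
  · rw [pshC, D.virC_eq, ← D.gdC.vr_cap ha, D.num.cuts.push_vrC D.ver.base D.gd, D.virF_eq,
      ← pull_fn, ← D.gd.vr_cap (Orb.cocycle_fn.2 h4)]
    exact congrArg _ h5
  · rw [pull_pull]
    rfl

end Ch

theorem St.fbI : St.FbI := by
  intro R J K ν _ _ _ _ _ F k g d β γ hF h hγ
  obtain ⟨_, a⟩ := h.nice.reg
  obtain ⟨_, b⟩ := h.nice.sm
  obtain ⟨c, hc, h2, rfl⟩ := H.isDeg_iff.1 hγ
  have := hF.toGood.fp
  have := hF.compact
  filter_upwards [h.good.ok ν (Fin 0) a b h.big g d] with D ⟨_, U, o⟩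
  have z := o.gz_cyc (0 : ν → J → ℕ)
  obtain ⟨u, h3, h4, h5⟩ := o.fibInt h.abs
    (cocycle_pull (DilA.eqv_unv z).qm.continuous hc) (h2.pull _)
  rw [DilA.eC_eq z, H.map_hcls _ hc, h4]
  have := z.act
  have := nice_of_orb z.orb
  refine FbI.cap_ind h3 ?_ _
  rintro y ⟨m, k, k1, k2⟩
  obtain ⟨B, π, v, s, r⟩ := k.exists_data (z.base _ y.out.2)
  have hm := (r.mem_solF z.inv z.wt).1 (z.sol y.out.2)
  rw [← Quot.out_eq y]
  refine (h5 _ _ _ _ r.cr.par r.crep.orb k1).trans ?_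
  rw [← Loc.intg_hcls β (Mono.DgI.rep_cocycle _), Mono.DgI.hcls_rep, Loc.intg_hcls β hc, ← k2,
    AM.ev_cls (fun _ ht _ => z.inv.cone_act ht) hm.2.1 hm.2.2 hc, pull_pull]
  exact congrArg (fun f => ev _ (pull f c)) (funext fun w =>
    congrArg (Quo.mk _) (Subtype.ext (r.vl_π w)))

end Vale.Agent.P269
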