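import Vale.Agent.P287Q.G.Fg.UcC
import Vale.Agent.P287Q.G.Fg.FbI
import Vale.Agent.P287Q.G.Br.Sel

/-!
# The divisor equation
-/

set_option linter.unusedSectionVars false
set_option linter.style.haveILetI false

namespace Vale.Agent.P269

open P291Z Set Function Topology Filter Cv

variable {S Λ R J K ν κ ν' κ' : Type} [Fintype S] [Fintype Λ] [Fintype R] [Fintype J] [Fintype K]
  [Fintype ν] [Fintype κ] [Fintype ν'] [Fintype κ'] [DecidableEq R] {F : Fam S Λ R J K}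

theorem AM.Fg.cls [IsEmpty κ] [IsEmpty κ'] {e : Option (Ch.Mk ν κ) ≃ Ch.Mk ν' κ'}
    {m : AM Λ R J ν κ} {m' : AM Λ R J ν' κ'} {z j r} (h : AM.Fg e m z m' j r) (hF : F.Good)
    (hm : m.Sol F) : m'.cls F.toWt F.cone = m.cls F.toWt F.cone := by
  haveI := hF.nice
  have a := h.sol.2 hm
  refine AM.cls_of_liso (fun _ b _ => hF.cone_act b) a.2.1 a.2.2 hm.2.2 h.ctr.liso
    h.ctr.left.injective (fun x => congrArg (Quo.mk _) (Subtype.ext ?_)) fun x b =>
      (h.ctr.ev_out b).mono fun y c => congrArg (Quo.mk _) (Subtype.ext ?_)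
  · exact (h.vl _).trans (congrArg _ (h.ctr.left x))
  · exact (h.vl _).trans ((congrArg _ ((h.ctr.out _ c).trans (h.ctr.out _ b).symm)).trans
      (h.vl _).symm)

theorem AM.Sol.not_un (hF : F.Good) {m : AM Λ R J ν κ} (hm : m.Sol F) {g : ℤ} {d : R → ℤ}
    (ht : m.Typ g d) (hc : m.Conn) (hn : Fintype.card (Ch.Mk ν κ) ≠ 0)
    (h : d ≠ 0 ∨ 3 < 2 * g + Fintype.card (Ch.Mk ν κ)) (q) : ¬m.Un F.θ q := fun a => by
  rw [AM.Un, hc.cmp_eq, degOn_univ, ht.deg_ω] at a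
  have b := ht.1 ▸ hc.gen_nonneg
  have c : d = 0 := funext fun i => (ht.2 i).symm.trans (degOn_univ.symm.trans
    (hm.degOn_zero hF (by rw [degOn_univ, ht.deg_bz]; omega) i))
  simp only [c, Pi.zero_apply, mul_zero, Finset.sum_const_zero] at a
  exact h.elim (· c) fun _ => by omega

theorem Fam.One.intg_smul {F : Fam Empty Λ R J K} {k D n : ℕ} {g : ℤ} {d : R → ℤ} (h : F.One k)
    (hD : F.BigD k D) {P : AM Λ R J (Fin n ⊕ Fin 0) (Fin 0) → Prop}
    (hP : IsClopen (F.sel P : Set (F.Mod (Fin 0) k D g d 0))) {v v' : BM (F.Mod (Fin 0) k D g d 0)}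
    {z : ℂ} (a : cap (hcls (ind (F.sel P))) v = z • cap (hcls (ind (F.sel P))) v') (Θ)
    (f : Fin n → ℕ × H (F.X F.cone)) :
    F.intg v P (F.fsF _ Θ f) = z * F.intg v' P (F.fsF _ Θ f) := by
  have hz : Ch.GZ F ℓs (F.Z0 (Fin n ⊕ Fin 0) (Fin 0) k D g d) := h.gz' _ _ hD _ d 0
  have i : ∀ (v : BM (F.Mod (Fin 0) k D g d 0)) x y, Loc.intg v (hcls (ind (F.sel P)) * x * y) =
      Loc.intg (cap (hcls (ind (F.sel P))) v) (x * y) := fun v x y =>
    (congrArg _ ((mul_assoc _ _ _).trans (Ch.Hev.commute (Ch.mem_Hev (k := 0) (hcls_isDeg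
      (by rw [ind_eq_fn]; exact isDeg_fn _))) _))).trans (Loc.intg_cap _ _ _).symm
  exact (h.intg_sel hD hz hP _ _ _).trans ((i _ _ _).trans ((congrArg (Loc.intg · _) a).trans
    (congrArg (z * ·) ((h.intg_sel hD hz hP _ _ _).trans (i _ _ _)).symm)))

/-- **The divisor equation.** -/
theorem St.div_of (hU : St.UcS) (hI : St.FbI) (hW : St.Well) : St.Div := by
  intro R J K _ _ _ _ F k β γ hT hk hγ d j l hd
  have h : F.One k := hT.one hT.nice_zero hk
  have hs : ∀ n, F.Sel k (j + 1) d 0 fun m : AM Empty R J (Fin n ⊕ Fin 0) (Fin 0) =>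
      m.Conn ∧ m.cls F.toWt F.cone = β := fun _ => Fam.Sel.conn.and (hT.sel_cls _ _ _ β)
  have e : ∀ {n} (f : Fin n → ℕ × H (F.X F.cone)) (l), l = List.ofFn f →
      F.cor k (F.exK _ β) 0 _ F.cone d j l [] [] =
        F.corP k (fun m => m.Conn ∧ m.cls F.toWt F.cone = β) 1 d j f := fun f _ a =>
    a ▸ F.cor_ofFnP k (fun _ _ m => m.Conn ∧ m.cls F.toWt F.cone = β) 1 d j f
  obtain ⟨D, h1, h2, h3, h4, h5⟩ := ((hU F k 1 d j l.get 0 γ _ _ h (Ch.mem_Hev (k := 1) hγ) (hs _)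
    (hs _) (fun m a _ b c => a.not_un h.good b c.1 (by simp) (hd.imp_right fun _ => by
      simp only [Fintype.card_sum, Fintype.card_fin, Fintype.card_prod]; omega) _)
    fun _ _ _ _ _ _ _ a b _ _ => and_congr a.conn (by rw [a.cls h.good b])).and
    ((hI (ν := Fin l.length ⊕ Fin 0) F k (j + 1) d β γ hT h hγ).and ((F.eventually_bigD k).and
    ((hs l.length).2.and (h.corP_ev hW (hs _) 1 l.get))))).exists
  rw [pow_zero, one_mul, if_pos rfl, h.intg_smul h3 h4 h2, eq_sub_iff_add_eq, ← h5] at h1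
  rw [e (Fin.cons (0, γ) l.get) _ (by simp), e l.get l (by simp), ← h1]
  refine congrArg₂ _ rfl (Finset.sum_congr rfl fun s _ => if_congr Iff.rfl rfl (e _ _ ?_).symm)
  refine List.ext_get (by simp) fun i a b => ?_
  simp [update_apply, List.getElem_set, Fin.ext_iff, eq_comm]

theorem St.div (hF : St.Forget) (hW : St.Well) : St.Div := St.div_of (St.ucS hF hW) St.fbI hW

end Vale.Agent.P269
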