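import Vale.Agent.P287Q.G.Fg.JcL
import Vale.Agent.P287Q.G.Spl.Spec

/-!
# The joint chart: the smooth spaces
-/

set_option linter.unusedSectionVars false

namespace Vale.Agent.P269

open P291Z Set Function Topology Filter Cv Ch MvPolynomial Jc Holo

variable {S Λ R J K K' ν κ ν' κ' : Type} [Fintype S] [Fintype Λ] [Fintype R] [Fintype J] [Fintype K]
  [Fintype K'] [Fintype ν] [Fintype κ] [Fintype ν'] [Fintype κ'] [DecidableEq R]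

namespace Jc

variable {c : Jc J R} {W : Wt S Λ R J} {F : Fam S Λ R J K} [IsEmpty κ] [IsEmpty κ']
  {e : Option (Mk ν κ) ≃ Mk ν' κ'} {x y : c.ch.WF ν' κ' Λ}
  {mov : Set (J3 J R)} {χ : K' → R3 R → ℤ} {wk : K' → S → ℤ}
  {G : K' → MvPolynomial (J3 J R) (MvPolynomial Λ ℂ)} {U : Set ((Λ → ℂ) × (J3 J R → ℂ))} {b : ℕ}

theorem Ok.eventually_gd (h : c.Ok W) (hx : x.2 ∈ c.ch.base _) (hg : c.Gd e x) :
    ∀ᶠ y in 𝓝 x, c.Gd e y := by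
  obtain ⟨m₀, h₀⟩ := h.lat.exists_rep (A := ∅) (Z := univ) (x := x)
    ⟨trivial, hx, fun q => isEmptyElim q⟩ fun _ a => a.elim
  obtain ⟨B₀, π₀, u₀, s₀, h₀⟩ := h₀.exists_data hx
  obtain ⟨r, z, z₀, -, -, a⟩ := h₀.exists_spec ⟨h.num.a_ne, h.num.cut⟩ finite_empty
  refine a.mono fun y k m B π u s H V hV => ?_
  obtain ⟨w, -, k, -⟩ := k ∅ m B π u s H
  obtain ⟨V₀, d1, -, d2, d3, d4, d5⟩ := k V hV
  obtain ⟨a1, a2⟩ := hg m₀ B₀ π₀ u₀ s₀ h₀ V₀ d1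
  simp only [d2, d3, (SpecP.deg_eq h.k_ne H h₀ d3).1]
  exact ⟨fun a3 a4 => (a1 a3 (d4 a4)).imp_left (mt d5), a2⟩

theorem gd_actF {W' : Wt S Λ (R3 R) (J3 J R)} {s : c.ch.AF ν' κ' S} (hs : IsUnit s)
    (hg : c.Gd e x) : c.Gd e (actF W' s x) := fun m B π u t H => by
  obtain ⟨s, rfl⟩ := hs
  have k := H.actF (W := W') s⁻¹.isUnit
  rw [← actF_mul, s.inv_mul, actF_one] at k
  exact hg (m.scl W' _) B _ _ _ k

theorem ivt_T {H : Fam S Λ (R3 R) (J3 J R) K'} (hH : H.Inv) : Ivt (actF H.toWt) (c.T e H) :=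
  fun _ hs _ hx => ⟨actF_mem_main hH hs hx.1, gd_actF hs hx.2⟩

theorem ivt_Z {H : Fam S Λ (R3 R) (J3 J R) K'} (hH : H.Inv) : Ivt (actF H.toWt) (c.Z e H) :=
  fun s hs x hx => ⟨actF_mem_solF hH hs hx.1, ivt_T hH s hs x hx.2⟩

theorem T_adm {H : Fam S Λ (R3 R) (J3 J R) K'} : c.T e H ⊆ c.ch.adm ν' κ' H := fun _ h => h.1.1

theorem Ok.eventually_T (h : c.Ok W) {H : Fam S Λ (R3 R) (J3 J R) K'} (hx : x ∈ c.T e H) :
    ∀ᶠ y in 𝓝 x, y ∈ c.T e H ↔ y ∈ c.ch.main κ' H (c.ord e) :=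
  (h.eventually_gd hx.1.1.1.2.1 hx.2).mono fun _ a => and_iff_left a

variable (h : c.Ok F.toWt) (hB : F.Sm b) (hm : Disjoint mov (range lk))
include h hB hm

theorem Ok.mfd_T (hx : x ∈ c.T e (F.jm mov χ wk G U)) : ∃ n : ℕ,
    (n : ℤ) = c.ch.dimM ν' κ' (F.jm mov χ wk G U) b (Fintype.card (Option R)) ∧
      MfdAt (c.T e (F.jm mov χ wk G U)) n x :=
  have := FiniteDimensional.complete ℂ (c.ch.WF ν' κ' Λ)
  let ⟨a1, a2⟩ := h.num.mfd_main (F := F.jm mov χ wk G U) hB (h.gr hm) hx.1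
  ⟨_, a1, a2.congr ((h.eventually_T hx).mono fun _ a => a.symm)⟩

theorem Ok.lc_T : IsLocallyClosed (c.T e (F.jm mov χ wk G U)) :=
  isLocallyClosed_of_mfd fun x => (h.mfd_T hB hm x.2).imp fun _ a => a.2.2

end Jc

end Vale.Agent.P269
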