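import Vale.Agent.P287Q.G.Fg.Bun
import Vale.Agent.P287Q.G.Fg.MultA

/-!
# The joint chart: the differential of the contraction at a marked point
-/

set_option linter.unusedSectionVars false

namespace Vale.Agent.P269

open P291Z Set Function Topology Filter Cv Ch MvPolynomial Jc Holo Base

variable {S Λ R J K K' ν κ ν' κ' : Type} [Fintype S] [Fintype Λ] [Fintype R] [Fintype J] [Fintype K]
  [Fintype K'] [Fintype ν] [Fintype κ] [Fintype ν'] [Fintype κ'] [DecidableEq R]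

namespace MultA

variable {ι : Type} [Fintype ι] [DecidableEq ι] {ch : Ch ι J}
  {η η₀ : (Fin (ch.M ch.o) → ℂ) →L[ℂ] ℂ}

theorem zq_smul (t : ι → ℂ) (c : V ch.M) (ht : ∀ i, t i ≠ 0) : zq η η₀ (t • c) = zq η η₀ c := by
  simp only [zq, Pi.smul_apply', map_smul, smul_eq_mul, mul_div_mul_left _ _ (ht _)]

theorem an_lo (η : (Fin (ch.M ch.o) → ℂ) →L[ℂ] ℂ) (c : V ch.M) :
    AnalyticAt ℂ (fun c : V ch.M => η (c ch.o)) c :=
  (η.comp (.proj ch.o : V ch.M →L[ℂ] _)).analyticAt c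

theorem an_zq {c : V ch.M} (h : η₀ (c ch.o) ≠ 0) : AnalyticAt ℂ (zq η η₀) c :=
  (an_lo η c).div (an_lo η₀ c) h

theorem deriv_zq {δ : ℂ → V ch.M} {v : V ch.M} (hδ : HasDerivAt δ v 0) (h : η₀ (δ 0 ch.o) ≠ 0) :
    dq η η₀ (δ 0) v = η₀ (δ 0 ch.o) ^ 2 * deriv (fun z => zq η η₀ (δ z)) 0 := by
  have a := fun η : (Fin (ch.M ch.o) → ℂ) →L[ℂ] ℂ =>
    (η.comp (.proj ch.o : V ch.M →L[ℂ] _)).hasFDerivAt.comp_hasDerivAt 0 hδ
  exact ((congrArg _ ((a η).fun_div (a η₀) h).deriv).trans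
    (mul_div_cancel₀ _ (pow_ne_zero 2 h))).symm

end MultA

open MultA

theorem Base.Orb.rVm {ι ι' : Type} [Fintype ι] [Fintype ι'] [DecidableEq ι] [DecidableEq ι']
    {M : ι' → ℕ} {a b : V M} (h : Orb a b) (σ : ι → ι') : Orb (rV σ a) (rV σ b) :=
  let ⟨t, k, e⟩ := h
  ⟨fun i => t (σ i), fun _ => k _, e ▸ rV_smul t a⟩

namespace Jc

variable {c : Jc J R} {W : Wt S Λ R J} {F : Fam S Λ R J K} [IsEmpty κ] [IsEmpty κ']
  {e : Option (Mk ν κ) ≃ Mk ν' κ'} {x y : c.ch.WF ν' κ' Λ} {K₀ : RD R} {b : ℕ}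
  {U₁ : Set (c.D₁.ch.WF ν' κ' Λ)} {U₂ : Set (c.D₂.ch.WF ν κ Λ)}
  {Φ : Quo (actC F.toWt) (unv (Z0 F c.D₂.ch ν κ)) → Quo (actF F.toWt) (Z0 F c.D₁.ch ν' κ')}

theorem an_rVm (a : V c.ch.M) :
    AnalyticAt ℂ (fun a : V c.ch.M => (rV .inr a : V c.D₂.ch.M)) a :=
  (rV (M := c.ch.M) Sum.inr).analyticAt a

namespace Ct

variable {h : c.Ok W} (t : Ct e h x) {n : Mk ν κ}
include t

theorem orb_outM (a : t.C'.p (e (some n)) ∉ range t.j) {y : t.C'.X} (b : y ∉ range t.j) :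
    Orb (rV .inr (t.π y)) (rV .inr (x.2.p (e (some n)))) := by
  rw [t.π_eq, t.ctr.out y b, ← t.ctr.out _ a, ← t.π_eq]
  exact (t.cr'.mark _).rVm _

theorem nearM (a : OnD n (h.f₂ e x)) : ∀ᶠ b in 𝓝 (x.2.p (e (some n))), b ∈ crv x.2 →
    Orb (rV .inr b) (rV .inr (x.2.p (e (some n)))) := by
  have k := (t.onD_iff n).1 a
  obtain ⟨s, s1, s2⟩ := t.cr'.mark (e (some n))
  refine (t.cr'.par.near (p := (· ∉ range t.j)) fun y u d => ?_).mono fun b d f => ?_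
  · exact (t.cr'.par.fibre s1 (s2.symm.trans d)).resolve_right (Cv.sm_iff.1 (t.cr'.sm _) y) ▸
      t.ctr.ev_out k
  · obtain ⟨y, u, u1, u2⟩ := (t.cr'.par.img b).1 f
    exact (Orb.rVm ⟨u, u1, u2⟩ _).symm.trans (t.orb_outM k (d y u u2))

theorem p_eqM (a : ¬OnD n (h.f₂ e x)) : t.C'.p (e (some n)) = t.j (t.C.p n) :=
  t.ctr.fibM (not_not.1 (mt (t.onD_iff n).2 a)) (t.ctr.r_mark (some n))

theorem orb_ofM (a : ¬OnD n (h.f₂ e x)) {b : V c.ch.M} (hb : b ∈ crv x.2)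
    (k : Orb (rV .inr (x.2.p (e (some n)))) (rV .inr b)) : Orb (x.2.p (e (some n))) b := by
  obtain ⟨y, u, u1, u2⟩ := (t.cr'.par.img b).1 hb
  obtain ⟨s, -, s2⟩ := ((t.cr.mark n).trans k).trans (Orb.rVm ⟨u, u1, u2⟩ Sum.inr).symm
  rw [t.π_eq] at s2
  have := t.ctr.fibM (not_not.1 (mt (t.onD_iff n).2 a)) ((t.cr.par.inj _ _ _ s2).resolve_right
    (Cv.sm_iff.1 (t.cr.sm n) _)).symm
  exact (t.cr'.mark _).symm.trans ⟨u, u1, by rw [t.p_eqM a, ← this, u2]⟩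

theorem br_neM (a : ¬OnD n (h.f₂ e x)) {G : V c.D₂.ch.M → ℂ}
    (inv : ∀ (t : Option R → ℂ) c, (∀ i, t i ≠ 0) → G (t • c) = G c) {β : ℂ → V c.D₂.ch.M}
    (b1 : AnalyticAt ℂ β 0) (b2 : ∀ᶠ z in 𝓝 0, β z ∈ crv (h.f₂ e x).1.2)
    (b3 : β 0 = (h.f₂ e x).1.2.p n) (b4 : deriv (fun z => G (β z)) 0 ≠ 0)
    (hG : AnalyticAt ℂ G (β 0)) {δ : ℂ → V c.ch.M} (hδ : IsBranch c.ch.o (crv x.2) δ)
    (h0 : δ 0 = x.2.p (e (some n))) : deriv (fun z => G (rV .inr (δ z))) 0 ≠ 0 := by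
  have o1 : Orb (β 0) (br t.A t.π₂ (t.C.p n) 0) := by
    rw [br_zero, b3]
    exact (t.cr.mark n).symm
  have a1 := MultA.br_ne inv t.cr.cur.nod (t.cr.par.isBranch (t.C.p n)) (fun k =>
    (t.cr.mem.2.2.2.1 n).2 (b3 ▸ t.cr.cur.nod.isNode_orb k o1.symm)) (MultA.an inv o1 hG) b1 b2 o1 b4
  refine MultA.br_ne (G := fun a => G (rV .inr a)) (fun s a k => inv _ (rV .inr a) fun i => k (.inr i))
    t.cr'.cur.nod hδ (h0 ▸ (t.cr'.mem.2.2.2.1 _).2)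
    (hG.comp_of_eq (an_rVm _) ((congrArg _ h0).trans b3.symm))
    ((an_br t.cr'.par.sec (t.j (t.C.p n))).comp_of_eq (t.ctr.liso.an (t.C.p n)) (tr_zero _ _ _ _))
    (.of_forall fun _ => t.cr'.par.br_mem _ _) ?_ ((EventuallyEq.deriv_eq ?_).trans_ne a1)
  · rw [comp_apply, tr_zero, br_zero, h0, ← t.p_eqM a]
    exact t.cr'.mark _
  · filter_upwards [(t.C.R.tends_i _).eventually (t.ctr.liso.ev_src (t.C.p n))] with z k
    refine (MultA.orb inv ((Orb.of_smul (t.cr'.par.ne _) (br_e k)).rVm Sum.inr)).symm.trans ?_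
    rw [t.π_j, br_eq, inv _ _ fun i => inv_ne_zero ((t.A i).ne _ _)]

end Ct

theorem Ok.ml (h : c.Ok F.toWt) (hF : F.Inv) (hB : F.Sm b) (n : Mk ν κ) :
    Ml n (c.T e (F.ja (range y2))) (h.f₂ e) (c.ch.sdψ S Λ (e (some n))).B
      (c.ch.sdψ S Λ (e (some n))).N (rV (M := c.ch.M) Sum.inr) := fun y hy ho => by
  have k : ∀ {x}, x ∈ c.T e (F.ja (range y2)) → x ∈ c.T e F.j0 := fun hx =>
    ((mem_T BunA.disj₂).1 hx).1
  have hb := h.bun₂ (e := e) hF hB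
  obtain ⟨m, -, hm⟩ := h.mfd_T hB BunA.disj₂ hy
  have hZ : ∀ x ∈ c.T e (F.ja (range y2)), x.2 ∈ c.ch.base _ := fun x a => (mem_T0.1 (k a)).2.1
  have hZ₂ : ∀ x ∈ c.T e (F.ja (range y2)), (h.f₂ e x).1.2 ∈ c.D₂.ch.base _ := fun x a =>
    (hb.maps a).1.2.1
  obtain ⟨l, hl⟩ := h.num₂.cut
  obtain ⟨Φ, Φ1, Φ2⟩ := hb.hol y hy
  have hf : LocFam c.D₂.ch.o (fun x : c.T e (F.ja (range y2)) => crv (h.f₂ e x).1.2) Subtype.val
      ⟨y, hy⟩ := locFam_of_hol hl (.of_forall fun _ => continuous_subtype_val.continuousAt)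
    ⟨fun x => (Φ x).1.2, analyticAt_snd.comp (analyticAt_fst.comp Φ1),
      (Holo.ev_sub (p := fun x => (h.f₂ e x).1.2 = (Φ x).1.2) hy).2
        ((eventually_nhdsWithin_iff.1 Φ2).mono fun x a d => congrArg (·.1.2) (a d))⟩
    (.of_forall fun x => hZ₂ _ x.2)
  have m0 := (hZ₂ y hy).2.2.2.1 n
  obtain ⟨τ, τ1, τ2⟩ := hf.smAt m0.1 m0.2
  have τ3 := τ2.isBranch0 (τ1 ▸ crv_ne m0.1 _)
  obtain ⟨η₀, a0⟩ := exists_dual_of_li τ3.imm ![1, 0]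
  obtain ⟨η, a1⟩ := exists_dual_of_li τ3.imm ![0, 1]
  let ζ₀ := η₀.toContinuousLinearMap
  let ζ := η.toContinuousLinearMap
  have a2 : ζ₀ (τ (y, 0) c.D₂.ch.o) ≠ 0 := (a0 0).trans_ne one_ne_zero
  have a3 : dq ζ ζ₀ (τ (y, 0)) (deriv (fun z => τ (y, z)) 0) ≠ 0 :=
    (congrArg₂ (· - ·) (congrArg₂ (· * ·) (a1 1) (a0 0)) (congrArg₂ (· * ·) (a1 0) (a0 1))).trans_ne
      (by simp)
  have a4 := right_ne_zero_of_mul
    ((deriv_zq τ3.holo.differentiableAt.hasDerivAt a2).symm.trans_ne a3)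
  have a5 : AnalyticAt ℂ (zq ζ ζ₀) (τ (y, 0)) := an_zq a2
  have inv := zq_smul (η := ζ) (η₀ := ζ₀)
  have nd : ∀ x ∈ c.T e (F.ja (range y2)), zq ζ ζ₀ (h.f₂ e x).2 ≠ zq ζ ζ₀ ((h.f₂ e x).1.2.p n) →
      ¬OnD n (h.f₂ e x) := fun x a d ⟨_, f⟩ => d (MultA.orb inv (.of_smul (crv_ne (hb.maps a).2) f))
  obtain ⟨s, s2⟩ := id ho
  have s1 := ne_of_smul_ne (s2 ▸ crv_ne (hb.maps hy).2)
  obtain ⟨Ψ, Ψ1, Ψ2, Ψ3⟩ := hb.sec y hy
  have β1 : Arc (unv (c.D₂.ch.baseF ν κ F.B)) (h.f₂ e y) fun z => ((h.f₂ e y).1, s • τ (y, z)) :=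
    ⟨analyticAt_const.prod (an_smul analyticAt_const τ3.holo), Prod.ext rfl (s2.trans
      (congrArg _ τ1.symm)).symm, τ3.mem.mono fun z a => ⟨(hb.maps hy).1, crv_smul a s1⟩⟩
  have β2 := β1.ev (eventually_nhdsWithin_iff.1 Ψ3)
  have β3 : Arc (c.T e (F.ja (range y2))) y fun z => Ψ ((h.f₂ e y).1, s • τ (y, z)) :=
    ⟨Ψ1.comp_of_eq β1.an β1.zero, (congrArg Ψ β1.zero).trans Ψ2, β2.mono fun _ a => a.1⟩
  obtain ⟨t⟩ := h.exists_ct (k hy)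
  have t0 := (t.onD_iff n).1 ho
  obtain ⟨j, j1, j2, j3, j4⟩ := t.ctr.tailM t0
  have p1 := fun o => W.an_p (analyticAt_snd (p := y)) (e o)
  have p2 := fun o => (an_rVm _).comp (p1 o)
  have i1 := ev_tot hy (MultA.inj inv hf τ2 a5 a4)
  rw [τ1] at i1 a2 a3 a5
  obtain ⟨σ, u, σ1, u1, u2, u3⟩ := MultA.main (G := fun a : V c.ch.M => zq ζ ζ₀ (rV .inr a))
    (fun s a k => inv _ (rV .inr a) fun i => k (.inr i)) hm (h.num.cuts.locFamF hZ ⟨y, hy⟩) (p1 (some n))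
    (p1 none) (fun x a => ⟨((hZ x a).2.2.2.1 _).1, ((hZ x a).2.2.2.1 _).1⟩) β3
    (β2.mono fun z a => congrArg (fun w : c.D₂.ch.WC ν κ Λ => zq ζ ζ₀ (w.1.2.p n)) a.2)
    ((EventuallyEq.deriv_eq (β2.mono fun z a => (congrArg (fun w : c.D₂.ch.WC ν κ Λ =>
      zq ζ ζ₀ w.2) a.2).trans (inv _ _ s1))).trans_ne a4) t.cr'.par j1
    (fun z => have o := (t.orb_outM t0 (j2 z).2).symm
      ⟨(j2 z).1, (MultA.an inv o a5).comp (an_rVm _), MultA.orb inv o⟩)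
    (j3 ▸ t.cr'.mark _) (j4 ▸ t.cr'.mark _) (by
      have c1 := (analyticAt_id.prod ((p2 (some n)).prod (an_smul (analyticAt_const (v := s⁻¹))
        (p2 none)))).continuousAt.tendsto.mono_right (congrArg (fun w => 𝓝 (y, (h.f₂ e y).1.2.p n, w))
          ((congrArg (s⁻¹ • ·) s2).trans (inv_smul_smul' s1 _))).le
      filter_upwards [c1.eventually i1] with x c2 c3 c4
      have s3 := fun i => inv_ne_zero (s1 i)
      obtain ⟨w, -, c5⟩ := (c2 c3 ((hZ₂ x c3).2.2.2.1 n).1 (crv_smul (hb.maps c3).2 s3)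
        ((inv _ _ s3).trans c4)).trans (.symm ⟨_, s3, rfl⟩)
      obtain ⟨t'⟩ := h.exists_ct (k c3)
      exact (t'.nearM ⟨w, c5⟩).mono fun a d f => (MultA.orb inv (d f)).symm) (by
      have c1 := (analyticAt_fst.prod (((p2 (some n)).comp_of_eq analyticAt_fst rfl).prod
        ((an_rVm _).comp
          (analyticAt_snd (p := (y, y.2.p (e (some n)))))))).continuousAt.tendsto
      filter_upwards [c1.eventually i1] with x c2 c3 c4 c5 c6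
      obtain ⟨t'⟩ := h.exists_ct (k c3)
      exact t'.orb_ofM (nd _ c3 c5) c4 (c2 c3 ((hZ₂ _ c3).2.2.2.1 n).1
        (t'.crv_eq.ge ⟨_, c4, rfl⟩) c6)) (β2.mono fun z a d δ d1 d2 =>
      let ⟨t'⟩ := h.exists_ct (k a.1)
      t'.br_neM (nd _ a.1 d) inv τ3.holo (by rw [a.2]; exact τ3.mem) (by rw [a.2]; exact τ1) a4
        (τ1.symm ▸ a5 :) d1 d2)
  have b1 : AnalyticAt ℂ (fun x => deriv (fun z => σ (x, z)) 0) y :=
    (Ch.an_deriv_snd σ1).comp_of_eq (analyticAt_id.prod analyticAt_const) rfl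
  have b2 := (an_lo ζ₀ _).comp (p2 (some n))
  have b3 := (b2.pow 2).mul u1
  refine ⟨ζ, ζ₀, ⟨a2, _, Submodule.subset_span ⟨_, τ3.holo, τ3.mem, τ1, rfl⟩, a3⟩,
    fun x => deriv (fun z => σ (x, z)) 0, fun x => ζ₀ ((h.f₂ e x).1.2.p n c.D₂.ch.o) ^ 2 * u x,
    notMem_sdψ_N (u3.self_of_nhds hy).1 (u3.self_of_nhds hy).2.1,
    mul_ne_zero (pow_ne_zero 2 a2) u2, eventually_nhdsWithin_iff.2 ?_⟩
  filter_upwards [u3, b1.eventually_analyticAt, b3.eventually_analyticAt,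
    b2.continuousAt.eventually_ne a2] with x c1 c2 c3 c4 hx
  obtain ⟨c5, c6, c7⟩ := c1 hx
  refine ⟨c2.continuousAt.continuousWithinAt, c3.continuousAt.continuousWithinAt,
    Submodule.subset_span ⟨_, c5.holo, c5.mem, c6, rfl⟩, ?_⟩
  have c8 := deriv_zq (η := ζ) (η₀ := ζ₀) ((rV (M := c.ch.M) Sum.inr).hasFDerivAt.comp_hasDerivAt 0
    c5.holo.differentiableAt.hasDerivAt) (by rw [comp_apply, c6]; exact c4)
  simp only [comp_apply, c6, c7] at c8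
  exact c8.trans (mul_assoc _ _ _).symm

end Jc

end Vale.Agent.P269
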